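import Mathlib

/-!
Low-degree functions on the discrete cube and labelled models.
-/

namespace Vale.Agent.P047

open Finset

/-- The real value of a sign. -/
def sg (u : Units ℤ) : ℝ := ((u : ℤ) : ℝ)

@[simp] lemma sg_one : sg 1 = 1 := by simp [sg]
@[simp] lemma sg_neg (u : Units ℤ) : sg (-u) = - sg u := by simp [sg]
@[simp] lemma sg_mul (u v : Units ℤ) : sg (u * v) = sg u * sg v := by simp [sg]

lemma sg_cases (u : Units ℤ) : sg u = 1 ∨ sg u = -1 := by
  rcases Int.units_eq_one_or u with h | h <;> simp [h]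

lemma sg_sq (u : Units ℤ) : sg u * sg u = 1 := by
  rcases sg_cases u with h | h <;> simp [h]

lemma sum_units (f : Units ℤ → ℝ) : ∑ u, f u = f 1 + f (-1) := by
  rw [UnitsInt.univ, Finset.sum_pair (by decide)]

/-- Affine functions on the cube. -/
def Aff (ι : Type) : Submodule ℝ ((ι → Units ℤ) → ℝ) :=
  Submodule.span ℝ (insert 1 (Set.range fun i : ι => fun x : ι → Units ℤ => sg (x i)))

/-- Functions of degree at most `n` on the cube. -/
def Deg (ι : Type) (n : ℕ) : Submodule ℝ ((ι → Units ℤ) → ℝ) := (Aff ι) ^ n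

lemma one_mem_Aff (ι : Type) : (1 : (ι → Units ℤ) → ℝ) ∈ Aff ι :=
  Submodule.subset_span (Set.mem_insert _ _)

lemma coord_mem_Deg {ι : Type} (i : ι) : (fun x : ι → Units ℤ => sg (x i)) ∈ Deg ι 1 := by
  unfold Deg; rw [pow_one]
  exact Submodule.subset_span (Set.mem_insert_of_mem _ ⟨i, rfl⟩)

lemma Deg_mul {ι : Type} {a b : ℕ} {f g : (ι → Units ℤ) → ℝ} (hf : f ∈ Deg ι a)
    (hg : g ∈ Deg ι b) : f * g ∈ Deg ι (a + b) := by
  unfold Deg at *; rw [pow_add]; exact Submodule.mul_mem_mul hf hg

lemma one_mem_Deg (ι : Type) (n : ℕ) : (1 : (ι → Units ℤ) → ℝ) ∈ Deg ι n := by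
  have := Submodule.pow_mem_pow (Aff ι) (one_mem_Aff ι) n
  rw [one_pow] at this
  exact this

lemma Deg_mono {ι : Type} {a b : ℕ} (h : a ≤ b) {f : (ι → Units ℤ) → ℝ} (hf : f ∈ Deg ι a) :
    f ∈ Deg ι b := by
  obtain ⟨c, rfl⟩ := Nat.exists_eq_add_of_le h
  simpa using Deg_mul hf (one_mem_Deg ι c)

/-- Substitution multiplies degrees. -/
lemma Deg_comp {ι κ : Type} {k : ℕ} (π : (κ → Units ℤ) → (ι → Units ℤ))
    (hπ : ∀ i, (fun x => sg (π x i)) ∈ Deg κ k) {n : ℕ} {f : (ι → Units ℤ) → ℝ}
    (hf : f ∈ Deg ι n) : (fun x => f (π x)) ∈ Deg κ (n * k) := by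
  unfold Deg at hf
  induction hf using Submodule.pow_induction_on_left' with
  | algebraMap r =>
    have : (fun x => (algebraMap ℝ ((ι → Units ℤ) → ℝ) r) (π x)) = r • (1 : (κ → Units ℤ) → ℝ) := by
      funext x; simp
    rw [this]; exact Submodule.smul_mem _ _ (one_mem_Deg _ _)
  | add x y i hx hy ihx ihy => exact Submodule.add_mem _ ihx ihy
  | mem_mul m hm i x hx ih =>
    have hm' : (fun z => m (π z)) ∈ Deg κ k := by
      unfold Aff at hm
      induction hm using Submodule.span_induction with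
      | mem y hy =>
        rcases hy with rfl | ⟨j, rfl⟩
        · exact one_mem_Deg _ _
        · exact hπ j
      | zero => exact Submodule.zero_mem _
      | add y z _ _ hy hz => exact Submodule.add_mem _ hy hz
      | smul r y _ hy => exact Submodule.smul_mem _ r hy
    have := Deg_mul hm' ih
    rw [show k + i * k = i.succ * k by rw [Nat.succ_mul]; ring] at this
    exact this

/-- Uniform average on the cube. -/
noncomputable def avg {ι : Type} [Fintype ι] [DecidableEq ι] (f : (ι → Units ℤ) → ℝ) : ℝ :=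
  ∑ x, (1 / 2 : ℝ) ^ Fintype.card ι * f x

/-- The sum of the coordinates. -/
def cs {ι : Type} [Fintype ι] (x : ι → Units ℤ) : ℝ := ∑ i, sg (x i)

/-- Characters of large sets are orthogonal to low-degree functions. -/
lemma Deg_orth {ι : Type} [Fintype ι] [DecidableEq ι] {n : ℕ} {f : (ι → Units ℤ) → ℝ}
    (hf : f ∈ Deg ι n) : ∀ S : Finset ι, n < S.card → ∑ x, f x * ∏ i ∈ S, sg (x i) = 0 := by
  unfold Deg at hf
  induction hf using Submodule.pow_induction_on_left' with
  | algebraMap r =>
    intro S hS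
    obtain ⟨j, hj⟩ := Finset.card_pos.mp hS
    have key : ∑ x : ι → Units ℤ, ∏ i ∈ S, sg (x i) = 0 := by
      have h1 : ∀ x : ι → Units ℤ, ∏ i ∈ S, sg (x i) = ∏ i, (if i ∈ S then sg (x i) else 1) := by
        intro x; rw [Finset.prod_ite_mem]; simp
      simp_rw [h1]
      have h2 := Finset.prod_univ_sum (fun _ : ι => (univ : Finset (Units ℤ)))
        (fun i u => if i ∈ S then sg u else (1 : ℝ))
      rw [Fintype.piFinset_univ] at h2
      rw [← h2]
      apply Finset.prod_eq_zero (Finset.mem_univ j)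
      simp [hj]
    simp [← Finset.mul_sum, key]
  | add x y i hx hy ihx ihy =>
    intro S hS
    simp only [Pi.add_apply, add_mul, Finset.sum_add_distrib, ihx S hS, ihy S hS, add_zero]
  | mem_mul m hm i f hf ih =>
    unfold Aff at hm
    induction hm using Submodule.span_induction with
    | mem y hy =>
      intro S hS
      rcases hy with rfl | ⟨j, rfl⟩
      · simpa using ih S (by omega)
      · by_cases hj : j ∈ S
        · have := ih (S.erase j) (by rw [Finset.card_erase_of_mem hj]; omega)
          rw [← this]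
          refine Finset.sum_congr rfl fun x _ => ?_
          rw [← Finset.mul_prod_erase S _ hj]
          simp only [Pi.mul_apply]
          have := sg_sq (x j)
          linear_combination (f x * ∏ i ∈ S.erase j, sg (x i)) * this
        · have := ih (insert j S) (by rw [Finset.card_insert_of_notMem hj]; omega)
          rw [← this]
          refine Finset.sum_congr rfl fun x _ => ?_
          rw [Finset.prod_insert hj]
          simp only [Pi.mul_apply]
          ring
    | zero => intro S _; simp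
    | add y z _ _ hy hz =>
      intro S hS
      have h1 := hy S hS
      have h2 := hz S hS
      simp only [Pi.mul_apply, Pi.add_apply] at *
      simp only [add_mul, Finset.sum_add_distrib, h1, h2, add_zero]
    | smul r y _ hy =>
      intro S hS
      have h1 := hy S hS
      simp only [Pi.mul_apply, Pi.smul_apply, smul_eq_mul] at *
      simp only [mul_assoc] at *
      rw [← Finset.mul_sum, h1, mul_zero]

/-- A labelling of a cube by a finite type, with the law `p` of the label and the conditional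
expectation `s` of the coordinate sum given the label. -/
structure Model (X : Type) [Fintype X] where
  ι : Type
  fι : Fintype ι
  dι : DecidableEq ι
  g : (ι → Units ℤ) → X
  p : X → ℝ
  s : X → ℝ
  law0 : ∀ φ : X → ℝ, avg (fun x => φ (g x)) = ∑ x, p x * φ x
  law1 : ∀ φ : X → ℝ, avg (fun x => cs x * φ (g x)) = ∑ x, p x * (s x * φ x)

namespace Model

variable {X Y : Type} [Fintype X] [Fintype Y]

/-- Functions of the label that have degree at most `n` on the cube. -/
def V (M : Model X) (n : ℕ) : Submodule ℝ (X → ℝ) where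
  carrier := {φ | (fun x => φ (M.g x)) ∈ Deg M.ι n}
  add_mem' := fun ha hb => Submodule.add_mem _ ha hb
  zero_mem' := Submodule.zero_mem _
  smul_mem' := fun c _ ha => Submodule.smul_mem _ c ha

lemma mem_V (M : Model X) (n : ℕ) (φ : X → ℝ) :
    φ ∈ M.V n ↔ (fun x => φ (M.g x)) ∈ Deg M.ι n := Iff.rfl

lemma V_mul (M : Model X) {a b : ℕ} {φ ψ : X → ℝ} (h1 : φ ∈ M.V a) (h2 : ψ ∈ M.V b) :
    (fun x => φ x * ψ x) ∈ M.V (a + b) := Deg_mul h1 h2

lemma V_mono (M : Model X) {a b : ℕ} (h : a ≤ b) {φ : X → ℝ} (h1 : φ ∈ M.V a) : φ ∈ M.V b :=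
  Deg_mono h h1

lemma V_const (M : Model X) (n : ℕ) (c : ℝ) : (fun _ => c) ∈ M.V n := by
  have : (fun _ : X => c) = c • (1 : X → ℝ) := by funext x; simp
  rw [this]
  exact Submodule.smul_mem _ _ (one_mem_Deg _ _)

lemma V_cmul (M : Model X) {n : ℕ} (c : ℝ) {φ : X → ℝ} (h : φ ∈ M.V n) :
    (fun x => c * φ x) ∈ M.V n := Submodule.smul_mem _ c h

lemma V_add (M : Model X) {n : ℕ} {φ ψ : X → ℝ} (h : φ ∈ M.V n) (h' : ψ ∈ M.V n) :
    (fun x => φ x + ψ x) ∈ M.V n := Submodule.add_mem _ h h'

lemma V_sum (M : Model X) {n : ℕ} {κ : Type} (T : Finset κ) {φ : κ → X → ℝ}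
    (h : ∀ k ∈ T, φ k ∈ M.V n) : (fun x => ∑ k ∈ T, φ k x) ∈ M.V n := by
  have : (fun x => ∑ k ∈ T, φ k x) = ∑ k ∈ T, φ k := by funext x; simp
  rw [this]; exact Submodule.sum_mem _ h

lemma V_prod (M : Model X) {κ : Type} (T : Finset κ) {n : κ → ℕ} {φ : κ → X → ℝ}
    (h : ∀ k ∈ T, φ k ∈ M.V (n k)) : (fun x => ∏ k ∈ T, φ k x) ∈ M.V (∑ k ∈ T, n k) := by
  classical
  induction T using Finset.induction_on with
  | empty => simpa using M.V_const 0 1
  | insert a T ha ih =>
    simp only [Finset.prod_insert ha, Finset.sum_insert ha]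
    exact M.V_mul (h a (Finset.mem_insert_self _ _))
      (ih fun k hk => h k (Finset.mem_insert_of_mem hk))

lemma p_nonneg (M : Model X) (x : X) : 0 ≤ M.p x := by
  classical
  have := M.law0 (fun y => if y = x then 1 else 0)
  simp only [mul_ite, mul_one, mul_zero, Finset.sum_ite_eq', Finset.mem_univ, if_true] at this
  rw [← this]
  unfold avg
  refine Finset.sum_nonneg fun y _ => ?_
  dsimp only
  split_ifs <;> positivity

lemma sum_p (M : Model X) : ∑ x, M.p x = 1 := by
  have := M.law0 (fun _ => 1)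
  simp only [mul_one] at this
  rw [← this]
  let _ := M.fι
  let _ := M.dι
  simp [avg, Fintype.card_units_int]

lemma sum_ps (M : Model X) : ∑ x, M.p x * M.s x = 0 := by
  have := M.law1 (fun _ => 1)
  simp only [mul_one] at this
  rw [← this]
  let _ := M.fι
  let _ := M.dι
  unfold avg cs
  rw [← Finset.mul_sum, Finset.sum_comm]
  rw [Finset.sum_eq_zero, mul_zero]
  intro i _
  have := Deg_orth (one_mem_Deg M.ι 0) {i} (by simp)
  simpa using this

end Model

end Vale.Agent.P047
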