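import Vale.Agent.P047.Combine

/-!
Balanced Boolean functions (bits), their composition, and the Chebyshev main part.
-/

namespace Vale.Agent.P047

open Finset

/-- There is a balanced Boolean function of degree at most `d` whose level-one coefficients sum
to `a`. -/
def IsBit (a : ℝ) (d : ℕ) : Prop :=
  ∃ B : Model (Units ℤ), (∀ u, B.p u = 1 / 2) ∧ (∀ u, B.s u = a * sg u) ∧ B.All d

lemma isBit_of {X : Type} [Fintype X] (M : Model X) {d : ℕ} (b : X → Units ℤ)
    (hb : (fun x => sg (b x)) ∈ M.V d) (h0 : ∑ x, M.p x * sg (b x) = 0) :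
    IsBit (∑ x, M.p x * (M.s x * sg (b x))) d := by
  refine ⟨M.map b (fun _ => 1 / 2) (fun u => (∑ x, M.p x * (M.s x * sg (b x))) * sg u) ?_ ?_,
    fun _ => rfl, fun _ => rfl, Model.All_units hb⟩
  · intro φ
    have : ∀ x, M.p x * φ (b x) = (φ 1 + φ (-1)) / 2 * M.p x
        + (φ 1 - φ (-1)) / 2 * (M.p x * sg (b x)) := by
      intro x
      rw [congrFun (Model.units_expand φ) (b x)]; ring
    simp_rw [this, Finset.sum_add_distrib, ← Finset.mul_sum, h0, M.sum_p, sum_units]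
    ring
  · intro φ
    have : ∀ x, M.p x * (M.s x * φ (b x)) = (φ 1 + φ (-1)) / 2 * (M.p x * M.s x)
        + (φ 1 - φ (-1)) / 2 * (M.p x * (M.s x * sg (b x))) := by
      intro x
      rw [congrFun (Model.units_expand φ) (b x)]; ring
    simp_rw [this, Finset.sum_add_distrib, ← Finset.mul_sum, M.sum_ps, sum_units]
    simp only [sg_one, sg_neg]
    ring

lemma exists_bit {X : Type} [Fintype X] (M : Model X) {d : ℕ} (hM : M.All d) {v : ℝ}
    (hv : 0 < v) (h2 : ∑ x, M.p x * M.s x ^ 2 = v) (h4 : ∑ x, M.p x * M.s x ^ 4 ≤ 4 * v ^ 2) :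
    ∃ a : ℝ, 0 ≤ a ∧ 4 * v / 7 ≤ a ^ 2 ∧ IsBit a (2 * d + 1) := by
  classical
  let P := (M.prod M.neg).prod Model.coin
  let b : (X × X) × Units ℤ → Units ℤ := fun z =>
    if M.s z.1.2 < M.s z.1.1 then 1 else if M.s z.1.1 < M.s z.1.2 then -1 else z.2
  have hP : P.All (2 * d + 1) := by
    have := Model.prod_All (Model.prod_All hM (Model.neg_All hM)) Model.coin_All
    rwa [← two_mul] at this
  have h0 : ∑ z, P.p z * sg (b z) = 0 := by
    have h1 : ∑ z, P.p z * sg (b z) = ∑ z, P.p z * - sg (b z) := by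
      refine Fintype.sum_equiv (Equiv.prodCongr (Equiv.prodComm X X) (Equiv.neg (Units ℤ))) _ _
        fun z => ?_
      obtain ⟨⟨x, x'⟩, u⟩ := z
      simp only [P, b, Model.prod_p, Model.neg_p, Model.coin_p, Equiv.prodCongr_apply, Prod.map,
        Equiv.prodComm_apply, Prod.swap, Equiv.neg_apply]
      rcases lt_trichotomy (M.s x) (M.s x') with h | h | h
      · simp [h, h.not_gt]; ring
      · simp only [h, lt_irrefl, if_false, sg_neg]; ring
      · simp [h, h.not_gt]; ring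
    simp only [mul_neg, Finset.sum_neg_distrib] at h1
    linarith
  set τ := Real.sqrt (7 * v) with hτ
  have hτ0 : 0 < τ := Real.sqrt_pos.mpr (by linarith)
  have hτ2 : τ ^ 2 = 7 * v := Real.sq_sqrt (by linarith)
  have hlow : 2 * v / τ ≤ ∑ z, P.p z * (P.s z * sg (b z)) := by
    rw [Fintype.sum_prod_type]
    have h1 : ∀ z : X × X, M.p z.1 * M.p z.2 * (3 / (2 * τ) * (M.s z.1 - M.s z.2) ^ 2
        - 1 / (2 * τ ^ 3) * (M.s z.1 - M.s z.2) ^ 4) ≤
        ∑ u, P.p (z, u) * (P.s (z, u) * sg (b (z, u))) := by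
      intro z
      have hp : 0 ≤ M.p z.1 * M.p z.2 := mul_nonneg (M.p_nonneg _) (M.p_nonneg _)
      have habs : ∀ w : ℝ, 0 ≤ w → 3 / (2 * τ) * w ^ 2 - 1 / (2 * τ ^ 3) * w ^ 4 ≤ w := by
        intro w hw
        have : w - (3 / (2 * τ) * w ^ 2 - 1 / (2 * τ ^ 3) * w ^ 4)
            = w * (w - τ) ^ 2 * (w + 2 * τ) / (2 * τ ^ 3) := by
          field_simp; ring
        have h5 : 0 ≤ w * (w - τ) ^ 2 * (w + 2 * τ) / (2 * τ ^ 3) := by positivity
        linarith
      rw [sum_units]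
      simp only [P, b, Model.prod_p, Model.prod_s, Model.neg_p, Model.neg_s, Model.coin_p,
        Model.coin_s]
      rcases lt_trichotomy (M.s z.1) (M.s z.2) with h | h | h
      · simp only [h, h.not_gt, if_true, if_false, sg_neg, sg_one]
        have h5 := habs (M.s z.2 - M.s z.1) (by linarith)
        have h6 := mul_le_mul_of_nonneg_left h5 hp
        have e2 : (M.s z.2 - M.s z.1) ^ 2 = (M.s z.1 - M.s z.2) ^ 2 := by ring
        have e4 : (M.s z.2 - M.s z.1) ^ 4 = (M.s z.1 - M.s z.2) ^ 4 := by ring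
        rw [e2, e4] at h6
        linarith
      · simp only [h, lt_irrefl, if_false, sg_neg, sg_one, sub_self]
        nlinarith
      · simp only [h, if_true, sg_neg, sg_one]
        have h5 := habs (M.s z.1 - M.s z.2) (by linarith)
        have h6 := mul_le_mul_of_nonneg_left h5 hp
        linarith
    refine le_trans ?_ (Finset.sum_le_sum fun z _ => h1 z)
    rw [Fintype.sum_prod_type]
    set μ := ∑ x, M.p x * M.s x ^ 4 with hμ
    set M3 := ∑ x, M.p x * M.s x ^ 3 with hM3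
    have h5 : ∀ x, ∑ x', M.p x * M.p x' * (3 / (2 * τ) * (M.s x - M.s x') ^ 2
        - 1 / (2 * τ ^ 3) * (M.s x - M.s x') ^ 4)
        = (3 / (2 * τ) - 6 * v / (2 * τ ^ 3)) * (M.p x * M.s x ^ 2)
          + (3 * v / (2 * τ) - μ / (2 * τ ^ 3)) * M.p x - 1 / (2 * τ ^ 3) * (M.p x * M.s x ^ 4)
          + 4 * M3 / (2 * τ ^ 3) * (M.p x * M.s x) := by
      intro x
      have : ∀ x', M.p x * M.p x' * (3 / (2 * τ) * (M.s x - M.s x') ^ 2
          - 1 / (2 * τ ^ 3) * (M.s x - M.s x') ^ 4)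
          = M.p x * (3 / (2 * τ) * M.s x ^ 2 - 1 / (2 * τ ^ 3) * M.s x ^ 4) * M.p x'
            + M.p x * (- 3 / τ * M.s x + 4 / (2 * τ ^ 3) * M.s x ^ 3) * (M.p x' * M.s x')
            + M.p x * (3 / (2 * τ) - 6 / (2 * τ ^ 3) * M.s x ^ 2) * (M.p x' * M.s x' ^ 2)
            + M.p x * (4 / (2 * τ ^ 3) * M.s x) * (M.p x' * M.s x' ^ 3)
            - M.p x * (1 / (2 * τ ^ 3)) * (M.p x' * M.s x' ^ 4) := by
        intro x'; field_simp; ring
      simp_rw [this, Finset.sum_sub_distrib, Finset.sum_add_distrib, ← Finset.mul_sum, M.sum_p,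
        M.sum_ps, h2]
      rw [← hμ, ← hM3]
      ring
    simp_rw [h5, Finset.sum_add_distrib, Finset.sum_sub_distrib, Finset.sum_add_distrib,
      ← Finset.mul_sum, M.sum_p, M.sum_ps, h2]
    rw [← hμ]
    have e : (3 / (2 * τ) - 6 * v / (2 * τ ^ 3)) * v + (3 * v / (2 * τ) - μ / (2 * τ ^ 3)) * 1
        - 1 / (2 * τ ^ 3) * μ + 4 * M3 / (2 * τ ^ 3) * 0 - 2 * v / τ
        = (v * τ ^ 2 - 3 * v ^ 2 - μ) / τ ^ 3 := by
      field_simp; ring
    have h6 : 0 ≤ (v * τ ^ 2 - 3 * v ^ 2 - μ) / τ ^ 3 := by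
      apply div_nonneg _ (by positivity)
      rw [hτ2]; nlinarith
    linarith
  have hpos : 0 ≤ 2 * v / τ := by positivity
  refine ⟨_, hpos.trans hlow, ?_, isBit_of P b (hP _) h0⟩
  have : (2 * v / τ) ^ 2 = 4 * v / 7 := by
    rw [div_pow, hτ2]; field_simp; norm_num
  rw [← this]
  exact pow_le_pow_left₀ hpos hlow 2

/-- Composition of balanced Boolean functions. -/
lemma IsBit.mul {a a' : ℝ} {d d' : ℕ} (h : IsBit a d) (h' : IsBit a' d') :
    IsBit (a' * a) (d * d') := by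
  obtain ⟨B, hp, hs, hB⟩ := h
  obtain ⟨B', hp', hs', hB'⟩ := h'
  let _ := B.fι; let _ := B.dι
  let P := B'.pi B.ι
  have hPp : ∀ ω, P.p ω = (1 / 2 : ℝ) ^ Fintype.card B.ι := by
    intro ω; simp [P, hp']
  have hPs : ∀ ω, P.s ω = a' * cs ω := by
    intro ω; simp [P, hs', cs, Finset.mul_sum]
  have hb : (fun ω => sg (B.g ω)) ∈ P.V (d * d') :=
    Deg_comp (k := d') P.g (fun i => Model.pi_coord B' B.ι (hB' sg) i) (hB sg)
  have h0 : ∑ ω, P.p ω * sg (B.g ω) = 0 := by
    simp_rw [hPp]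
    have := B.law0 sg
    unfold avg at this
    rw [this, sum_units]
    simp [hp]
  have h1 : ∑ ω, P.p ω * (P.s ω * sg (B.g ω)) = a' * a := by
    simp_rw [hPp, hPs]
    have := B.law1 sg
    unfold avg at this
    rw [sum_units] at this
    simp only [hp, hs, sg_one, sg_neg] at this
    have e : ∑ ω : B.ι → Units ℤ, (1 / 2 : ℝ) ^ Fintype.card B.ι * (a' * cs ω * sg (B.g ω))
        = a' * ∑ ω : B.ι → Units ℤ, (1 / 2 : ℝ) ^ Fintype.card B.ι * (cs ω * sg (B.g ω)) := by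
      rw [Finset.mul_sum]; exact Finset.sum_congr rfl fun ω _ => by ring
    rw [e, this]; ring
  have := isBit_of P B.g hb h0
  rwa [h1] at this

lemma isBit_one : IsBit 1 1 :=
  ⟨Model.coin, fun _ => rfl, fun u => by simp, Model.coin_All⟩

lemma IsBit.pow {a : ℝ} {d : ℕ} (h : IsBit a d) (k : ℕ) : IsBit (a ^ k) (d ^ k) := by
  induction k with
  | zero => simpa using isBit_one
  | succ k ih =>
    have := h.mul ih
    rwa [← pow_succ, ← pow_succ'] at this

end Vale.Agent.P047
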