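import Vale.Agent.P047.Bit

/-!
The bounded degree-five part.
-/

namespace Vale.Agent.P047

open Finset

/-- The Chebyshev main part. -/
lemma exists_main {a : ℝ} {d : ℕ} (ha : 0 ≤ a) (h : IsBit a d) :
    ∃ (W : Type) (_ : Fintype W) (U : Model W) (G : W → ℝ), U.All (256 * d) ∧ G ∈ U.V (5 * d) ∧
      ∑ w, U.p w * G w = 0 ∧ (∀ w, ∃ k : ℕ, k ≤ 2 ^ 41 ∧ G w = 2 * k / ((2 ^ 41 : ℕ) : ℝ) - 1) ∧
      19 / 4 * a ≤ ∑ w, U.p w * (U.s w * G w) := by
  obtain ⟨B, hp, hs, hB⟩ := h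
  obtain ⟨u, hu⟩ : ∃ u : ℕ, u = 256 := ⟨_, rfl⟩
  have hur : (u : ℝ) = 256 := by rw [hu]; norm_num
  let U := B.pi (Fin u)
  let T : ℝ → ℝ := fun t => 16 * t ^ 5 - 20 * t ^ 3 + 5 * t
  let S : (Fin u → Units ℤ) → ℝ := fun ω => ∑ i, sg (ω i)
  have hS : S ∈ U.V d := Model.V_sum _ _ fun i _ => Model.pi_coord B _ (hB sg) i
  have hUp : ∀ ω, U.p ω = ∏ _i : Fin u, (1 / 2 : ℝ) := by
    intro ω; simp only [U, Model.pi_p, hp]
  have hUs : ∀ ω, U.s ω = a * S ω := by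
    intro ω; simp only [U, S, Model.pi_s, hs, Finset.mul_sum]
  refine ⟨_, inferInstance, U, fun ω => T (S ω / 256), ?_, ?_, ?_, ?_, ?_⟩
  · have := Model.pi_All hB (Fin u)
    rw [Fintype.card_fin] at this
    rw [← hu]
    exact this
  · have h2 := Model.V_mul _ hS hS
    have h3 := Model.V_mul _ h2 hS
    have h5 := Model.V_mul _ h3 h2
    have e : (fun ω => T (S ω / 256)) = fun ω => 16 / 256 ^ 5 * (S ω * S ω * S ω * (S ω * S ω))
        + (- 20 / 256 ^ 3 * (S ω * S ω * S ω) + 5 / 256 * S ω) := by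
      funext ω; simp only [T]; ring
    rw [e]
    exact Model.V_add _ (Model.V_cmul _ _ (Model.V_mono _ (by omega) h5))
      (Model.V_add _ (Model.V_cmul _ _ (Model.V_mono _ (by omega) h3))
        (Model.V_cmul _ _ (Model.V_mono _ (by omega) hS)))
  · simp_rw [hUp]
    have h1 : ∑ ω, (∏ _i : Fin u, (1 / 2 : ℝ)) * T (S ω / 256)
        = ∑ ω, (∏ _i : Fin u, (1 / 2 : ℝ)) * - T (S ω / 256) := by
      refine Fintype.sum_equiv (Equiv.neg (Fin u → Units ℤ)) _ _ fun ω => ?_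
      have : S (Equiv.neg (Fin u → Units ℤ) ω) = - S ω := by
        simp only [S, Equiv.neg_apply, Pi.neg_apply, sg_neg, Finset.sum_neg_distrib]
      rw [this]; simp only [T]; ring
    simp only [mul_neg, Finset.sum_neg_distrib] at h1
    linarith
  · intro ω
    let m : ℤ := ∑ i, (ω i : ℤ)
    have hm : (m : ℝ) = S ω := by simp only [m, S, sg, Int.cast_sum]
    have hSle : |S ω| ≤ 256 := by
      refine (Finset.abs_sum_le_sum_abs _ _).trans ?_
      have : ∀ i, |sg (ω i)| = 1 := fun i => by rcases sg_cases (ω i) with h | h <;> simp [h]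
      simp only [this, Finset.sum_const, Finset.card_univ, Fintype.card_fin, nsmul_eq_mul, hur]
      norm_num
    have ht : (S ω / 256) ^ 2 ≤ 1 := by
      rw [div_pow, div_le_one (by positivity)]
      exact sq_le_sq' (by linarith [abs_le.mp hSle]) (abs_le.mp hSle).2
    have hT : T (S ω / 256) ^ 2 ≤ 1 := by
      have : ∀ t : ℝ, 1 - T t ^ 2 = (1 - t ^ 2) * (16 * t ^ 4 - 12 * t ^ 2 + 1) ^ 2 := by
        intro t; simp only [T]; ring
      have h1 := this (S ω / 256)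
      have h2 := mul_nonneg (sub_nonneg.mpr ht)
        (sq_nonneg (16 * (S ω / 256) ^ 4 - 12 * (S ω / 256) ^ 2 + 1))
      linarith
    have hT' := abs_le.mp (sq_le_one_iff_abs_le_one _ |>.mp hT)
    let K : ℤ := 2 ^ 40 + 16 * m ^ 5 - 20 * 2 ^ 16 * m ^ 3 + 5 * 2 ^ 32 * m
    have hK : (K : ℝ) = 2 ^ 40 * (T (S ω / 256) + 1) := by
      simp only [K, T]; push_cast; rw [hm]; ring
    have hK0 : 0 ≤ K := by
      have : (0 : ℝ) ≤ K := by rw [hK]; nlinarith [hT'.1]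
      exact_mod_cast this
    have hK1 : K ≤ 2 ^ 41 := by
      have : (K : ℝ) ≤ 2 ^ 41 := by rw [hK]; nlinarith [hT'.2]
      exact_mod_cast this
    refine ⟨K.toNat, by omega, ?_⟩
    have : ((K.toNat : ℕ) : ℝ) = K := by exact_mod_cast Int.toNat_of_nonneg hK0
    rw [this, hK]; push_cast; ring
  · simp_rw [hUp, hUs]
    obtain ⟨_, _, h2, h4⟩ := pi_moments (fun _ : Units ℤ => (1 / 2 : ℝ)) sg (by simp)
      (by simp) u
    simp only [sum_units, sg_one, sg_neg] at h2 h4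
    have h1 : ∀ ω, a * (5 / 256 * ((∏ _i : Fin u, (1 / 2 : ℝ)) * S ω ^ 2)
        - 20 / 256 ^ 3 * ((∏ _i : Fin u, (1 / 2 : ℝ)) * S ω ^ 4))
        ≤ (∏ _i : Fin u, (1 / 2 : ℝ)) * (a * S ω * T (S ω / 256)) := by
      intro ω
      have hc : (0 : ℝ) ≤ ∏ _i : Fin u, (1 / 2 : ℝ) :=
        Finset.prod_nonneg fun _ _ => by norm_num
      generalize (∏ _i : Fin u, (1 / 2 : ℝ)) = c at hc ⊢
      have h6 : 0 ≤ c * a * (16 / 256 ^ 5 * S ω ^ 6) := by positivity
      simp only [T]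
      linarith [show c * (a * S ω * (16 * (S ω / 256) ^ 5 - 20 * (S ω / 256) ^ 3 + 5 * (S ω / 256)))
        = a * (5 / 256 * (c * S ω ^ 2) - 20 / 256 ^ 3 * (c * S ω ^ 4))
          + c * a * (16 / 256 ^ 5 * S ω ^ 6) by ring]
    refine le_trans ?_ (Finset.sum_le_sum fun ω _ => h1 ω)
    rw [← Finset.mul_sum, Finset.sum_sub_distrib, ← Finset.mul_sum _ _ (5 / 256 : ℝ),
      ← Finset.mul_sum _ _ (20 / 256 ^ 3 : ℝ)]
    simp only [S]
    rw [h2, h4, mul_comm, hur]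
    refine mul_le_mul_of_nonneg_left ?_ ha
    norm_num

end Vale.Agent.P047
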