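import Vale.Agent.P047.Prob

/-!
Splitting a finite probability space into boundedly many classes of non-negligible mass on which
a random variable with bounded kurtosis is almost constant.
-/

namespace Vale.Agent.P047

open Finset

set_option maxHeartbeats 1000000 in
lemma classes_aux (L m : ℕ) (hL : 4 ≤ L) (hm : 1 ≤ m) {X : Type} [Fintype X] (p z : X → ℝ)
    (hp0 : ∀ x, 0 ≤ p x) (hp : ∑ x, p x = 1) (h2 : ∑ x, p x * z x ^ 2 ≤ 1)
    (h4 : ∑ x, p x * z x ^ 4 ≤ 4) :
    ∃ (C : Type) (_ : Fintype C) (_ : DecidableEq C) (c : X → C) (t : C → ℝ),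
      Fintype.card C ≤ 2 * (L * m) + 1 ∧
      (∀ a, 1 / ((L : ℝ) ^ 4 * (2 * (L * m) + 1)) ≤ ∑ x, p x * (if c x = a then 1 else 0)) ∧
      ∑ a, (∑ x, p x * (if c x = a then 1 else 0) * (z x - t a) ^ 2) /
        (∑ x, p x * (if c x = a then 1 else 0)) ≤ 3 * L / m + 133 * m / (L : ℝ) ^ 2 := by
  classical
  have hLr : (4 : ℝ) ≤ L := by exact_mod_cast hL
  have hmr : (1 : ℝ) ≤ m := by exact_mod_cast hm
  have hm0 : (0 : ℝ) < m := by linarith
  have hL0 : (0 : ℝ) < L := by linarith
  set p0 : ℝ := 1 / ((L : ℝ) ^ 4 * (2 * (L * m) + 1)) with hp0def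
  have hp0pos : 0 < p0 := by positivity
  let n : X → ℤ := fun x => ⌊z x * m⌋
  let π : ℤ → ℝ := fun a => ∑ x, p x * (if n x = a then 1 else 0)
  have hπ0 : ∀ a, 0 ≤ π a := fun a => Finset.sum_nonneg fun x _ => by
    have := hp0 x
    split_ifs <;> positivity
  -- outside a window the variable is large
  have hout : ∀ (K : ℕ) (x : X), n x ∉ Finset.Icc (-((K * m : ℕ) : ℤ)) ((K * m : ℕ) : ℤ) →
      (K : ℝ) ^ 2 ≤ z x ^ 2 := by
    intro K x hx
    rw [Finset.mem_Icc, not_and_or, not_le, not_le] at hx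
    have hK : (0 : ℝ) ≤ K := Nat.cast_nonneg K
    rcases hx with hx | hx
    · have h1 : z x * m < (n x : ℝ) + 1 := Int.lt_floor_add_one _
      have h3 : n x + 1 ≤ -((K * m : ℕ) : ℤ) := hx
      have h3' : (n x : ℝ) + 1 ≤ -((K : ℝ) * m) := by exact_mod_cast h3
      have h5 : z x ≤ -K := by
        by_contra hc
        push Not at hc
        nlinarith
      nlinarith
    · have h1 : (n x : ℝ) ≤ z x * m := Int.floor_le _
      have h3' : (K : ℝ) * m ≤ (n x : ℝ) := by exact_mod_cast hx.le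
      have h5 : (K : ℝ) ≤ z x := by
        by_contra hc
        push Not at hc
        nlinarith
      nlinarith
  have hsumπ : ∀ T : Finset ℤ, ∑ a ∈ T, π a = ∑ x, p x * (if n x ∈ T then 1 else 0) := by
    intro T
    simp only [π]
    rw [Finset.sum_comm]
    refine Finset.sum_congr rfl fun x _ => ?_
    rw [← Finset.mul_sum]
    simp
  -- a heavy central cell
  obtain ⟨a0, ha0J, ha0⟩ : ∃ a0 ∈ Finset.Icc (-((2 * m : ℕ) : ℤ)) ((2 * m : ℕ) : ℤ),
      1 / (7 * (m : ℝ)) ≤ π a0 := by
    apply Finset.exists_le_of_sum_le ⟨0, by simp⟩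
    rw [hsumπ, Finset.sum_const, Int.card_Icc]
    have hc : (((2 * m : ℕ) : ℤ) + 1 - -((2 * m : ℕ) : ℤ)).toNat = 4 * m + 1 := by omega
    rw [hc]
    have h1 : ∑ x, p x * (1 - z x ^ 2 / 4) ≤ ∑ x, p x *
        (if n x ∈ Finset.Icc (-((2 * m : ℕ) : ℤ)) ((2 * m : ℕ) : ℤ) then 1 else 0) := by
      refine Finset.sum_le_sum fun x _ => mul_le_mul_of_nonneg_left ?_ (hp0 x)
      split_ifs with hx
      · nlinarith [sq_nonneg (z x)]
      · have := hout 2 x hx
        push_cast at this
        linarith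
    have h3 : ∑ x, p x * (1 - z x ^ 2 / 4) = 1 - (∑ x, p x * z x ^ 2) / 4 := by
      have : ∀ x, p x * (1 - z x ^ 2 / 4) = p x - p x * z x ^ 2 / 4 := fun x => by ring
      simp_rw [this]
      rw [Finset.sum_sub_distrib, hp, Finset.sum_div]
    have h5 : ((4 * m + 1 : ℕ) : ℝ) * (1 / (7 * (m : ℝ))) ≤ 3 / 4 := by
      push_cast
      rw [mul_one_div, div_le_iff₀ (by positivity)]
      linarith
    rw [nsmul_eq_mul]
    linarith
  let I : Finset ℤ := Finset.Icc (-((L * m : ℕ) : ℤ)) ((L * m : ℕ) : ℤ)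
  have hcardI : I.card = 2 * (L * m) + 1 := by
    simp only [I, Int.card_Icc]; omega
  let H : Finset ℤ := I.filter fun a => p0 ≤ π a
  have hLm : 2 * m ≤ L * m := Nat.mul_le_mul_right m (by omega)
  have ha0H : a0 ∈ H := by
    refine Finset.mem_filter.mpr ⟨?_, le_trans ?_ ha0⟩
    · rw [Finset.mem_Icc] at ha0J ⊢
      constructor <;> omega
    · rw [hp0def]
      apply one_div_le_one_div_of_le (by positivity)
      have : (1 : ℝ) ≤ (L : ℝ) ^ 4 := one_le_pow₀ (by linarith)
      nlinarith [mul_le_mul_of_nonneg_right hLr hm0.le]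
  have ha0abs : (a0 / m : ℝ) ^ 2 ≤ 4 := by
    rw [Finset.mem_Icc] at ha0J
    have h1 : -(2 * (m : ℝ)) ≤ a0 := by exact_mod_cast ha0J.1
    have h3 : (a0 : ℝ) ≤ 2 * m := by exact_mod_cast ha0J.2
    rw [div_pow, div_le_iff₀ (by positivity)]
    nlinarith
  -- mass of the bad points
  have hbad : ∑ x, p x * (if n x ∈ H then 0 else 1) ≤ 5 / (L : ℝ) ^ 4 := by
    have h1 : ∑ x, p x * (if n x ∈ H then 0 else 1) ≤
        ∑ x, (p x * (if n x ∈ I \ H then 1 else 0) + p x * z x ^ 4 / (L : ℝ) ^ 4) := by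
      refine Finset.sum_le_sum fun x _ => ?_
      have hpx := hp0 x
      have hz : 0 ≤ p x * z x ^ 4 / (L : ℝ) ^ 4 := by positivity
      by_cases hxH : n x ∈ H
      · simp only [hxH, if_true, Finset.mem_sdiff, not_true, and_false, if_false]
        linarith
      · by_cases hxI : n x ∈ I
        · simp only [hxH, if_false, Finset.mem_sdiff, hxI, not_false_iff, and_self, if_true]
          linarith
        · simp only [hxH, if_false, Finset.mem_sdiff, hxI, false_and]
          have h5 := hout L x hxI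
          have h6 : (L : ℝ) ^ 4 ≤ z x ^ 4 := by nlinarith [sq_nonneg (L : ℝ)]
          rw [mul_zero, zero_add, mul_one, le_div_iff₀ (by positivity)]
          exact mul_le_mul_of_nonneg_left h6 hpx
    rw [Finset.sum_add_distrib, ← hsumπ, ← Finset.sum_div] at h1
    have h3 : ∑ a ∈ I \ H, π a ≤ 1 / (L : ℝ) ^ 4 := by
      have : ∑ a ∈ I \ H, π a ≤ (I \ H).card • p0 := by
        apply Finset.sum_le_card_nsmul
        intro a ha
        rw [Finset.mem_sdiff] at ha
        by_contra hc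
        push Not at hc
        exact ha.2 (Finset.mem_filter.mpr ⟨ha.1, hc.le⟩)
      refine this.trans ?_
      rw [nsmul_eq_mul]
      have hc : ((I \ H).card : ℝ) ≤ 2 * (L * m) + 1 := by
        have := Finset.card_le_card (Finset.sdiff_subset (s := I) (t := H))
        rw [hcardI] at this
        exact_mod_cast this
      calc ((I \ H).card : ℝ) * p0 ≤ (2 * (L * m) + 1) * p0 :=
            mul_le_mul_of_nonneg_right hc hp0pos.le
        _ = 1 / (L : ℝ) ^ 4 := by rw [hp0def]; field_simp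
    have h5 : (∑ x, p x * z x ^ 4) / (L : ℝ) ^ 4 ≤ 4 / (L : ℝ) ^ 4 :=
      div_le_div_of_nonneg_right h4 (by positivity)
    have : (5 : ℝ) / (L : ℝ) ^ 4 = 1 / (L : ℝ) ^ 4 + 4 / (L : ℝ) ^ 4 := by ring
    linarith
  have hB : ∑ x, p x * (if n x ∈ H then 0 else 1) * (z x - a0 / m) ^ 2 ≤ 19 / (L : ℝ) ^ 2 := by
    have h1 : ∑ x, p x * (if n x ∈ H then 0 else 1) * (z x - a0 / m) ^ 2 ≤
        ∑ x, (p x * z x ^ 4 / (L : ℝ) ^ 2 +
          ((L : ℝ) ^ 2 + 8) * (p x * (if n x ∈ H then 0 else 1))) := by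
      refine Finset.sum_le_sum fun x _ => ?_
      have hpx := hp0 x
      split_ifs
      · simp only [mul_zero, zero_mul, add_zero]; positivity
      · have h5 : 2 * z x ^ 2 ≤ z x ^ 4 / (L : ℝ) ^ 2 + (L : ℝ) ^ 2 := by
          rw [div_add' _ _ _ (by positivity), le_div_iff₀ (by positivity)]
          nlinarith [sq_nonneg (z x ^ 2 - (L : ℝ) ^ 2)]
        have h6 : (z x - a0 / m) ^ 2 ≤ 2 * z x ^ 2 + 8 := by
          nlinarith [sq_nonneg (z x + a0 / m)]
        have h7 : (z x - a0 / m) ^ 2 ≤ z x ^ 4 / (L : ℝ) ^ 2 + ((L : ℝ) ^ 2 + 8) := by linarith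
        have := mul_le_mul_of_nonneg_left h7 hpx
        rw [mul_div_assoc]
        nlinarith
    rw [Finset.sum_add_distrib, ← Finset.sum_div, ← Finset.mul_sum] at h1
    have h5 : (∑ x, p x * z x ^ 4) / (L : ℝ) ^ 2 ≤ 4 / (L : ℝ) ^ 2 :=
      div_le_div_of_nonneg_right h4 (by positivity)
    have h6 : ((L : ℝ) ^ 2 + 8) * ∑ x, p x * (if n x ∈ H then 0 else 1) ≤
        ((L : ℝ) ^ 2 + 8) * (5 / (L : ℝ) ^ 4) := mul_le_mul_of_nonneg_left hbad (by positivity)
    have h7 : ((L : ℝ) ^ 2 + 8) * (5 / (L : ℝ) ^ 4) ≤ 15 / (L : ℝ) ^ 2 := by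
      rw [← mul_div_assoc, div_le_div_iff₀ (by positivity) (by positivity)]
      have : (16 : ℝ) ≤ (L : ℝ) ^ 2 := by nlinarith
      nlinarith [pow_pos hL0 2, pow_pos hL0 4]
    have : (19 : ℝ) / (L : ℝ) ^ 2 = 4 / (L : ℝ) ^ 2 + 15 / (L : ℝ) ^ 2 := by ring
    linarith
  let c : X → {a // a ∈ H} := fun x => if h : n x ∈ H then ⟨n x, h⟩ else ⟨a0, ha0H⟩
  have hmass : ∀ a : {a // a ∈ H}, π a ≤ ∑ x, p x * (if c x = a then 1 else 0) := by
    intro a
    refine Finset.sum_le_sum fun x _ => mul_le_mul_of_nonneg_left ?_ (hp0 x)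
    by_cases hx : n x = a
    · have hxH : n x ∈ H := hx ▸ a.2
      have : c x = a := by
        simp only [c, hxH, dif_pos]
        exact Subtype.ext hx
      simp [hx, this]
    · simp only [hx, if_false]
      split_ifs <;> norm_num
  have hcardH : H.card ≤ 2 * (L * m) + 1 := hcardI ▸ Finset.card_filter_le _ _
  refine ⟨{a // a ∈ H}, inferInstance, inferInstance, c, fun a => (a : ℤ) / m, ?_, ?_, ?_⟩
  · simpa using hcardH
  · intro a
    exact le_trans (Finset.mem_filter.mp a.2).2 (hmass a)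
  · have hterm : ∀ a : {a // a ∈ H},
        (∑ x, p x * (if c x = a then 1 else 0) * (z x - (a : ℤ) / m) ^ 2) /
          (∑ x, p x * (if c x = a then 1 else 0)) ≤
        1 / (m : ℝ) ^ 2 + if a = ⟨a0, ha0H⟩ then 133 * m / (L : ℝ) ^ 2 else 0 := by
      intro a
      have hπa : p0 ≤ π a := (Finset.mem_filter.mp a.2).2
      have hpos : 0 < ∑ x, p x * (if c x = a then 1 else 0) :=
        lt_of_lt_of_le (lt_of_lt_of_le hp0pos hπa) (hmass a)
      have hnum : ∑ x, p x * (if c x = a then 1 else 0) * (z x - (a : ℤ) / m) ^ 2 ≤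
          ∑ x, (1 / (m : ℝ) ^ 2 * (p x * (if c x = a then 1 else 0)) +
            (if a = ⟨a0, ha0H⟩ then 1 else 0) *
              (p x * (if n x ∈ H then 0 else 1) * (z x - a0 / m) ^ 2)) := by
        refine Finset.sum_le_sum fun x _ => ?_
        have hpx := hp0 x
        by_cases hca : c x = a
        · by_cases hxH : n x ∈ H
          · have hn : n x = a := by
              have := hca
              simp only [c, hxH, dif_pos] at this
              exact congrArg Subtype.val this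
            have h1 : (n x : ℝ) ≤ z x * m := Int.floor_le _
            have h3 : z x * m < (n x : ℝ) + 1 := Int.lt_floor_add_one _
            have h5 : (z x - (a : ℤ) / m) ^ 2 ≤ 1 / (m : ℝ) ^ 2 := by
              rw [← hn, le_div_iff₀ (by positivity)]
              have : (z x - (n x : ℝ) / m) ^ 2 * (m : ℝ) ^ 2 = (z x * m - n x) ^ 2 := by
                field_simp
              rw [this]
              nlinarith
            simp only [hca, hxH, if_true, mul_one, mul_zero, zero_mul, add_zero]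
            nlinarith
          · have ha : a = ⟨a0, ha0H⟩ := by
              rw [← hca]; simp only [c, hxH, dif_neg, not_false_iff]
            subst ha
            simp only [hca, hxH, if_true, if_false, mul_one, one_mul]
            have : 0 ≤ 1 / (m : ℝ) ^ 2 * p x := by positivity
            linarith
        · simp only [hca, if_false, mul_zero, zero_mul, zero_add]
          split_ifs <;> positivity
      rw [Finset.sum_add_distrib, ← Finset.mul_sum, ← Finset.mul_sum] at hnum
      rw [div_le_iff₀ hpos, add_mul]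
      refine hnum.trans (add_le_add le_rfl ?_)
      split_ifs with ha
      · have h1 : 1 / (7 * (m : ℝ)) ≤ ∑ x, p x * (if c x = a then 1 else 0) := by
          refine le_trans ?_ (hmass a)
          rw [ha]; exact ha0
        calc 1 * ∑ x, p x * (if n x ∈ H then 0 else 1) * (z x - a0 / m) ^ 2
            ≤ 19 / (L : ℝ) ^ 2 := by rw [one_mul]; exact hB
          _ = 133 * m / (L : ℝ) ^ 2 * (1 / (7 * (m : ℝ))) := by field_simp; norm_num
          _ ≤ _ := mul_le_mul_of_nonneg_left h1 (by positivity)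
      · simp
    refine (Finset.sum_le_sum fun a _ => hterm a).trans ?_
    rw [Finset.sum_add_distrib, Finset.sum_const, Finset.sum_ite_eq']
    simp only [Finset.mem_univ, if_true, Finset.card_univ, Fintype.card_coe, nsmul_eq_mul]
    have hc : (H.card : ℝ) ≤ 2 * (L * m) + 1 := by exact_mod_cast hcardH
    have : (H.card : ℝ) * (1 / (m : ℝ) ^ 2) ≤ 3 * L / m := by
      rw [mul_one_div, div_le_div_iff₀ (by positivity) hm0]
      have h1 : (1 : ℝ) ≤ L * m := by nlinarith
      have h3 : (H.card : ℝ) ≤ 3 * (L * m) := by linarith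
      nlinarith [mul_le_mul_of_nonneg_right h3 hm0.le]
    linarith

/-- The class lemma, with centred classes. -/
lemma classes (lam : ℝ) (hlam : 0 < lam) : ∃ (Q : ℕ) (p0 : ℝ), 0 < p0 ∧ p0 ≤ 1 ∧
    ∀ {X : Type} [Fintype X] (p s : X → ℝ) (v : ℝ), (∀ x, 0 ≤ p x) → ∑ x, p x = 1 → 0 < v →
    ∑ x, p x * s x ^ 2 = v → ∑ x, p x * s x ^ 4 ≤ 4 * v ^ 2 →
    ∃ (C : Type) (_ : Fintype C) (_ : DecidableEq C) (c : X → C) (t : C → ℝ),
      Fintype.card C ≤ Q ∧
      (∀ a, p0 ≤ ∑ x, p x * (if c x = a then 1 else 0)) ∧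
      (∀ a, ∑ x, p x * (if c x = a then 1 else 0) * (s x - t a) = 0) ∧
      ∑ a, (∑ x, p x * (if c x = a then 1 else 0) * (s x - t a) ^ 2) /
        (∑ x, p x * (if c x = a then 1 else 0)) ≤ lam * v := by
  obtain ⟨k, hk⟩ := exists_nat_ge (6 / lam + 1)
  have hk6 : 0 < 6 / lam := by positivity
  have hk1 : (1 : ℝ) ≤ k := by linarith
  have hk1' : 1 ≤ k := by exact_mod_cast hk1
  have hL : 4 ≤ 50 * k ^ 2 := by nlinarith
  have hm : 1 ≤ k * (50 * k ^ 2) := by nlinarith
  set L : ℕ := 50 * k ^ 2 with hLdef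
  set m : ℕ := k * L with hmdef
  have hLr : (4 : ℝ) ≤ L := by exact_mod_cast hL
  have hmr : (1 : ℝ) ≤ m := by exact_mod_cast hm
  refine ⟨2 * (L * m) + 1, 1 / ((L : ℝ) ^ 4 * (2 * (L * m) + 1)), by positivity, ?_, ?_⟩
  · rw [div_le_one (by positivity)]
    have : (1 : ℝ) ≤ (L : ℝ) ^ 4 := one_le_pow₀ (by linarith)
    nlinarith [mul_nonneg (Nat.cast_nonneg (α := ℝ) L) (Nat.cast_nonneg (α := ℝ) m)]
  intro X _ p s v hp0 hp hv h2 h4
  set τ := Real.sqrt v with hτ
  have hτ0 : 0 < τ := Real.sqrt_pos.mpr hv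
  have hτ2 : τ ^ 2 = v := Real.sq_sqrt hv.le
  obtain ⟨C, _, _, c, t, hC, hmass, hsum⟩ := classes_aux L m hL hm p (fun x => s x / τ) hp0 hp
    (by
      have : ∑ x, p x * (s x / τ) ^ 2 = (∑ x, p x * s x ^ 2) / v := by
        rw [Finset.sum_div]
        exact Finset.sum_congr rfl fun x _ => by rw [div_pow, hτ2]; ring
      rw [this, h2, div_self hv.ne'])
    (by
      have : ∑ x, p x * (s x / τ) ^ 4 = (∑ x, p x * s x ^ 4) / v ^ 2 := by
        rw [Finset.sum_div]
        exact Finset.sum_congr rfl fun x _ => by rw [div_pow, ← hτ2]; ring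
      rw [this, div_le_iff₀ (by positivity)]
      exact h4)
  have hpos : ∀ a, 0 < ∑ x, p x * (if c x = a then 1 else 0) :=
    fun a => lt_of_lt_of_le (by positivity) (hmass a)
  let μ : C → ℝ := fun a => (∑ x, p x * (if c x = a then 1 else 0) * s x) /
    (∑ x, p x * (if c x = a then 1 else 0))
  have hcent : ∀ a, ∑ x, p x * (if c x = a then 1 else 0) * (s x - μ a) = 0 := by
    intro a
    simp_rw [mul_sub]
    rw [Finset.sum_sub_distrib, ← Finset.sum_mul]
    have := (hpos a).ne'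
    simp only [μ]
    field_simp
    ring
  refine ⟨C, inferInstance, inferInstance, c, μ, hC, hmass, hcent, ?_⟩
  have hle : ∀ a, ∑ x, p x * (if c x = a then 1 else 0) * (s x - μ a) ^ 2 ≤
      v * ∑ x, p x * (if c x = a then 1 else 0) * (s x / τ - t a) ^ 2 := by
    intro a
    have h1 : v * ∑ x, p x * (if c x = a then 1 else 0) * (s x / τ - t a) ^ 2 =
        ∑ x, p x * (if c x = a then 1 else 0) * (s x - μ a) ^ 2 +
        2 * (μ a - τ * t a) * ∑ x, p x * (if c x = a then 1 else 0) * (s x - μ a) +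
        (μ a - τ * t a) ^ 2 * ∑ x, p x * (if c x = a then 1 else 0) := by
      simp only [Finset.mul_sum, ← Finset.sum_add_distrib]
      refine Finset.sum_congr rfl fun x _ => ?_
      rw [← hτ2]
      field_simp
      ring
    rw [h1, hcent]
    have := mul_nonneg (sq_nonneg (μ a - τ * t a)) (hpos a).le
    linarith
  calc ∑ a, (∑ x, p x * (if c x = a then 1 else 0) * (s x - μ a) ^ 2) /
        (∑ x, p x * (if c x = a then 1 else 0))
      ≤ ∑ a, v * ((∑ x, p x * (if c x = a then 1 else 0) * (s x / τ - t a) ^ 2) /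
        (∑ x, p x * (if c x = a then 1 else 0))) := by
        refine Finset.sum_le_sum fun a _ => ?_
        rw [← mul_div_assoc]
        exact div_le_div_of_nonneg_right (hle a) (hpos a).le
    _ ≤ v * (3 * L / m + 133 * m / (L : ℝ) ^ 2) := by
        rw [← Finset.mul_sum]
        exact mul_le_mul_of_nonneg_left hsum hv.le
    _ ≤ lam * v := by
        rw [mul_comm]
        refine mul_le_mul_of_nonneg_right ?_ hv.le
        have hk0 : (0 : ℝ) < k := by linarith
        have e1 : (3 : ℝ) * L / m + 133 * m / (L : ℝ) ^ 2 = (3 + 133 / 50) / k := by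
          rw [hmdef, hLdef]; push_cast; field_simp
        rw [e1, div_le_iff₀ hk0]
        have : 6 / lam * lam = 6 := by field_simp
        nlinarith

end Vale.Agent.P047
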