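import Vale.Agent.P047.Seeds

/-!
Rounding a bounded low-degree function to a sign with the help of a seed.
-/

namespace Vale.Agent.P047

open Finset

lemma sum_lt_fin (N k : ℕ) (hk : k ≤ N) :
    ∑ i : Fin N, (if i.val < k then (1 : ℝ) else -1) = 2 * k - N := by
  rw [Fin.sum_univ_eq_sum_range (fun i => if i < k then (1 : ℝ) else -1) N]
  obtain ⟨m, rfl⟩ := Nat.exists_eq_add_of_le hk
  rw [Finset.sum_range_add, Finset.sum_congr rfl (g := fun _ => (1 : ℝ)),
    Finset.sum_congr rfl (s₁ := range m) (g := fun _ => (-1 : ℝ))]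
  · simp; ring
  · intro x _; simp
  · intro x hx; simp [Finset.mem_range.mp hx]

lemma combine {T D N : ℕ} {vt η loss : ℝ} (S : Seed T D N vt η loss) (hN : 0 < N)
    {W : Type} [Fintype W] (U : Model W) {E e D' : ℕ} (hU : U.All E) (G : W → ℝ)
    (hG : G ∈ U.V e) (hG0 : ∑ w, U.p w * G w = 0)
    (hgran : ∀ w, ∃ k : ℕ, k ≤ N ∧ G w = 2 * k / N - 1) (h1 : T + e ≤ D') (h2 : D + E ≤ D') :
    ∃ (X' : Type) (_ : Fintype X') (M' : Model X'), M'.All D' ∧
      vt - loss + (1 - η) * (∑ w, U.p w * (U.s w * G w)) ^ 2 ≤ ∑ x, M'.p x * M'.s x ^ 2 := by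
  classical
  let _ := S.fZ; let _ := S.fΛ; let _ := S.dΛ; let _ := S.fY
  choose k hk hGk using hgran
  let eY : S.Y ≃ Fin N := Fintype.equivFinOfCardEq S.cardY
  let zf : W → S.Y → Units ℤ := fun w y => if (eY y).val < k w then 1 else -1
  let ψ : W → S.Y → ℝ := fun w y => sg (zf w y) - G w
  have hNr : (0 : ℝ) < N := by exact_mod_cast hN
  have hψ : ∀ w, ∑ y, ψ w y = 0 := by
    intro w
    simp only [ψ, Finset.sum_sub_distrib, Finset.sum_const, Finset.card_univ, S.cardY,
      nsmul_eq_mul]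
    have : ∑ y, sg (zf w y) = ∑ i : Fin N, (if i.val < k w then (1 : ℝ) else -1) := by
      refine Fintype.sum_equiv eY _ _ fun y => ?_
      simp only [zf]; split_ifs <;> simp
    rw [this, sum_lt_fin N _ (hk w), hGk w]
    field_simp
    ring
  set A := ∑ w, U.p w * (U.s w * G w) with hA
  let h : S.Z × W → S.Λ × Units ℤ := fun z =>
    (S.g z.1, if S.good (S.g z.1) = true then zf z.2 (S.y z.1) else 1)
  let gd : S.Z → ℝ := fun z => if S.good (S.g z) = true then 1 else 0
  let σ' : S.Λ × Units ℤ → ℝ := fun a => S.σ a.1 + A * (if S.good a.1 = true then sg a.2 else 0)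
  have hdeg : ∀ φ : S.Λ × Units ℤ → ℝ, (fun z => φ (h z)) ∈ (S.M.prod U).V D' := by
    intro φ
    have e1 : (fun z => φ (h z)) = fun z : S.Z × W => ∑ l : S.Λ,
        (if S.good l = true then
          ((φ (l, 1) + φ (l, -1)) / 2 * (if S.g z.1 = l then 1 else 0)
            + (φ (l, 1) - φ (l, -1)) / 2 * ((if S.g z.1 = l then 1 else 0) * G z.2)
            + (φ (l, 1) - φ (l, -1)) / 2 * (ψ z.2 (S.y z.1) * (if S.g z.1 = l then 1 else 0)))
        else φ (l, 1) * (if S.g z.1 = l then 1 else 0)) := by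
      funext z
      rw [Finset.sum_eq_single (S.g z.1)]
      · simp only [h, ψ, if_true]
        split_ifs with hg
        · have := congrFun (Model.units_expand (fun u => φ (S.g z.1, u))) (zf z.2 (S.y z.1))
          rw [this]; ring
        · ring
      · intro b _ hb
        simp [Ne.symm hb]
      · simp
    rw [e1]
    refine Model.V_sum _ _ fun l _ => ?_
    have hind : (fun z : S.Z × W => if S.g z.1 = l then (1 : ℝ) else 0) ∈ (S.M.prod U).V T :=
      Model.prod_fst S.M U (S.all fun z => if S.g z = l then (1 : ℝ) else 0)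
    split_ifs with hl
    · refine Model.V_add _ (Model.V_add _ ?_ ?_) ?_
      · exact Model.V_cmul _ _ (Model.V_mono _ (by omega) hind)
      · exact Model.V_cmul _ _ (Model.V_mono _ h1 (Model.V_mul _ hind (Model.prod_snd S.M U hG)))
      · refine Model.V_cmul _ _ (Model.V_mono _ h2 ?_)
        exact Model.prod_mem S.M U hU _ fun w => S.save l hl (ψ w) (hψ w)
    · exact Model.V_cmul _ _ (Model.V_mono _ (by omega) hind)
  obtain ⟨M', hM', hvar⟩ := (S.M.prod U).exists_map h hdeg σ'
  refine ⟨_, inferInstance, M', hM', le_trans ?_ hvar⟩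
  have hz0 : ∀ (w : W) (β : S.Λ → ℝ), ∑ z, S.M.p z * (β (S.g z) * gd z * ψ w (S.y z)) = 0 := by
    intro w β
    have : ∀ z, S.M.p z * (β (S.g z) * gd z * ψ w (S.y z)) = ∑ l, (if S.good l = true then β l else 0)
        * (S.M.p z * (ψ w (S.y z) * (if S.g z = l then 1 else 0))) := by
      intro z
      rw [Finset.sum_eq_single (S.g z)]
      · simp only [gd]; split_ifs <;> ring
      · intro b _ hb; simp [Ne.symm hb]
      · simp
    simp_rw [this]
    rw [Finset.sum_comm]
    refine Finset.sum_eq_zero fun l _ => ?_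
    rw [← Finset.mul_sum]
    split_ifs with hl
    · rw [S.fair0 l hl _ (hψ w), mul_zero]
    · rw [zero_mul]
  have hz1 : ∀ (w : W), ∑ z, S.M.p z * (S.M.s z * gd z * ψ w (S.y z)) = 0 := by
    intro w
    have : ∀ z, S.M.p z * (S.M.s z * gd z * ψ w (S.y z)) = ∑ l, (if S.good l = true then 1 else 0)
        * (S.M.p z * (S.M.s z * (ψ w (S.y z) * (if S.g z = l then 1 else 0)))) := by
      intro z
      rw [Finset.sum_eq_single (S.g z)]
      · simp only [gd]; split_ifs <;> ring
      · intro b _ hb; simp [Ne.symm hb]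
      · simp
    simp_rw [this]
    rw [Finset.sum_comm]
    refine Finset.sum_eq_zero fun l _ => ?_
    rw [← Finset.mul_sum]
    split_ifs with hl
    · rw [S.fair1 l hl _ (hψ w), mul_zero]
    · rw [zero_mul]
  set H1 := ∑ z, S.M.p z * (S.M.s z - S.σ (S.g z)) with hH1
  set H2 := ∑ z, S.M.p z * (S.M.s z - S.σ (S.g z)) ^ 2 with hH2
  set Hg := ∑ z, S.M.p z * ((S.M.s z - S.σ (S.g z)) * gd z) with hHg
  set Pg := ∑ z, S.M.p z * gd z with hPg
  set v2 := ∑ w, U.p w * U.s w ^ 2 with hv2
  have e2 : ∑ x, (S.M.prod U).p x * (S.M.prod U).s x ^ 2 = vt + v2 := by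
    rw [Fintype.sum_prod_type_right]
    simp only [Model.prod_p, Model.prod_s]
    have : ∀ w, ∑ z, S.M.p z * U.p w * (S.M.s z + U.s w) ^ 2
        = U.p w * vt + U.p w * U.s w ^ 2 := by
      intro w
      have : ∀ z, S.M.p z * U.p w * (S.M.s z + U.s w) ^ 2 = U.p w * (S.M.p z * S.M.s z ^ 2)
          + 2 * U.p w * U.s w * (S.M.p z * S.M.s z) + U.p w * U.s w ^ 2 * S.M.p z :=
        fun z => by ring
      simp_rw [this, Finset.sum_add_distrib, ← Finset.mul_sum, S.var, S.M.sum_ps, S.M.sum_p]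
      ring
    simp_rw [this, Finset.sum_add_distrib, ← Finset.sum_mul, U.sum_p]
    ring
  have e3 : ∑ x, (S.M.prod U).p x * ((S.M.prod U).s x - σ' (h x)) ^ 2
      = H2 + v2 - A ^ 2 * Pg := by
    rw [Fintype.sum_prod_type_right]
    simp only [Model.prod_p, Model.prod_s]
    have : ∀ w, ∑ z, S.M.p z * U.p w * (S.M.s z + U.s w - σ' (h (z, w))) ^ 2
        = U.p w * (H2 + A ^ 2 * Pg) + U.p w * U.s w ^ 2 + 2 * H1 * (U.p w * U.s w)
          - 2 * A * Hg * (U.p w * G w) - 2 * A * Pg * (U.p w * (U.s w * G w)) := by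
      intro w
      have : ∀ z, S.M.p z * U.p w * (S.M.s z + U.s w - σ' (h (z, w))) ^ 2
          = U.p w * (S.M.p z * (S.M.s z - S.σ (S.g z)) ^ 2) + U.p w * A ^ 2 * (S.M.p z * gd z)
            + U.p w * U.s w ^ 2 * S.M.p z
            + 2 * U.p w * U.s w * (S.M.p z * (S.M.s z - S.σ (S.g z)))
            - 2 * A * U.p w * G w * (S.M.p z * ((S.M.s z - S.σ (S.g z)) * gd z))
            - 2 * A * U.p w * U.s w * G w * (S.M.p z * gd z)
            - 2 * A * U.p w * (S.M.p z * (S.M.s z * gd z * ψ w (S.y z)))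
            - 2 * A * U.p w * (S.M.p z * ((U.s w - S.σ (S.g z)) * gd z * ψ w (S.y z))) := by
        intro z
        simp only [σ', h, gd, ψ]
        split_ifs with hg
        · have := sg_sq (zf w (S.y z))
          linear_combination (S.M.p z * U.p w * A ^ 2) * this
        · ring
      simp_rw [this, Finset.sum_sub_distrib, Finset.sum_add_distrib, ← Finset.mul_sum, hz1,
        hz0 w (fun l => U.s w - S.σ l), S.M.sum_p]
      rw [← hH1, ← hH2, ← hHg, ← hPg]
      ring
    simp_rw [this, Finset.sum_sub_distrib, Finset.sum_add_distrib, ← Finset.mul_sum,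
      ← Finset.sum_mul, U.sum_p, U.sum_ps, hG0]
    rw [← hA, ← hv2]
    ring
  rw [e2, e3]
  have h3 : H2 ≤ loss := S.lost
  have h4 : 1 - η ≤ Pg := by
    have h5 := S.prob
    have : Pg = 1 - ∑ z, S.M.p z * (if S.good (S.g z) = true then 0 else 1) := by
      rw [eq_sub_iff_add_eq, hPg, ← Finset.sum_add_distrib]
      refine Eq.trans (Finset.sum_congr rfl fun z _ => ?_) S.M.sum_p
      simp only [gd]; split_ifs <;> ring
    linarith
  nlinarith [sq_nonneg A]

end Vale.Agent.P047
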