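import Vale.Agent.P047.Step

/-!
Translation to functions on `Fin n`, polynomial growth, and the linear upper bound that makes the
supremum finite.
-/

namespace Vale.Agent.P047

open Finset

lemma IsBit.realize {a : ℝ} {d : ℕ} (ha : 0 < a) (h : IsBit a d) :
    ∃ n : ℕ, 1 ≤ n ∧ ∃ f : (Fin n → Units ℤ) → Units ℤ,
      (∀ S : Finset (Fin n), d < S.card → ∑ x, sg (f x) * ∏ i ∈ S, sg (x i) = 0) ∧
      ∑ i : Fin n, (∑ x, sg (f x) * sg (x i)) / 2 ^ n = a := by
  obtain ⟨B, hp, hs, hB⟩ := h
  let _ := B.fι; let _ := B.dι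
  have h1 := B.law1 sg
  rw [sum_units] at h1
  simp only [hp, hs, sg_one, sg_neg] at h1
  let e := Fintype.equivFin B.ι
  have h2 : ∑ i : Fin (Fintype.card B.ι), (∑ x : Fin (Fintype.card B.ι) → Units ℤ,
      sg (B.g fun i => x (e i)) * sg (x i)) / 2 ^ Fintype.card B.ι = a := by
    rw [← Finset.sum_div, Finset.sum_comm]
    have h3 : a = avg (fun x => cs x * sg (B.g x)) := by rw [h1]; ring
    rw [h3]
    unfold avg
    rw [Finset.sum_div]
    refine Fintype.sum_equiv (Equiv.arrowCongr e.symm (Equiv.refl (Units ℤ))) _ _ fun x => ?_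
    have h4 : (Equiv.arrowCongr e.symm (Equiv.refl (Units ℤ))) x = fun i => x (e i) := by
      funext i; simp
    rw [h4, ← Finset.mul_sum]
    have h5 : cs (fun i => x (e i)) = ∑ i, sg (x i) := Equiv.sum_comp e (fun i => sg (x i))
    simp only [h5]
    rw [one_div, inv_pow]
    field_simp
  refine ⟨Fintype.card B.ι, ?_, fun x => B.g fun i => x (e i), ?_, h2⟩
  · by_contra hc
    have h0 : Fintype.card B.ι = 0 := by omega
    have : IsEmpty (Fin (Fintype.card B.ι)) := by rw [h0]; infer_instance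
    rw [Fintype.sum_empty] at h2
    linarith
  · have := Deg_comp (k := 1) (κ := Fin (Fintype.card B.ι)) (fun x i => x (e i))
      (fun i => coord_mem_Deg (e i)) (hB sg)
    rw [mul_one] at this
    exact Deg_orth this

lemma growth : ∃ ε : ℝ, 0 < ε ∧ ∃ c : ℝ, 0 < c ∧ ∀ d : ℕ, 1 ≤ d →
    ∃ n : ℕ, 1 ≤ n ∧ ∃ f : (Fin n → Units ℤ) → Units ℤ,
      (∀ S : Finset (Fin n), d < S.card → ∑ x, sg (f x) * ∏ i ∈ S, sg (x i) = 0) ∧
      c * (d : ℝ) ^ (1 / 2 + ε) ≤ ∑ i : Fin n, (∑ x, sg (f x) * sg (x i)) / 2 ^ n := by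
  obtain ⟨a, d0, ha0, hd0, ha, hbit⟩ := exists_good_bit
  have hd0r : (2 : ℝ) ≤ d0 := by exact_mod_cast hd0
  have ha1 : 1 < a := by nlinarith
  have hlog : 0 < Real.log d0 := Real.log_pos (by linarith)
  set α := Real.log a / Real.log d0 with hα
  have hα1 : 1 / 2 < α := by
    rw [hα, lt_div_iff₀ hlog]
    have := Real.log_lt_log (by linarith) ha
    rw [Real.log_pow] at this
    push_cast at this
    linarith
  have hpow : (d0 : ℝ) ^ α = a := by
    rw [Real.rpow_def_of_pos (by linarith), hα, mul_div_cancel₀ _ hlog.ne',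
      Real.exp_log (by linarith)]
  refine ⟨α - 1 / 2, by linarith, 1 / a, by positivity, fun d hd => ?_⟩
  have e : 1 / 2 + (α - 1 / 2) = α := by ring
  rw [e]
  set k := Nat.log d0 d with hk
  have hk1 : d0 ^ k ≤ d := Nat.pow_log_le_self d0 (by omega)
  have hk2 : d < d0 ^ (k + 1) := Nat.lt_pow_succ_log_self (by omega) d
  obtain ⟨n, hn, f, hf, hL⟩ := (hbit.pow k).realize (by positivity)
  refine ⟨n, hn, f, fun S hS => hf S (by omega), ?_⟩
  rw [hL]
  have h1 : (d : ℝ) ^ α ≤ ((d0 : ℝ) ^ (k + 1)) ^ α :=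
    Real.rpow_le_rpow (Nat.cast_nonneg d) (by exact_mod_cast hk2.le) (by linarith)
  rw [← Real.rpow_natCast, ← Real.rpow_mul (by linarith), mul_comm, Real.rpow_mul (by linarith),
    hpow, Real.rpow_natCast] at h1
  rw [one_div, inv_mul_le_iff₀ (by linarith), ← pow_succ']
  exact h1

lemma fourier_inv {κ : Type} [Fintype κ] [DecidableEq κ] (ψ : (κ → Units ℤ) → ℝ) (y : κ → Units ℤ) :
    ψ y = ∑ T : Finset κ, ((∑ a, ψ a * ∏ i ∈ T, sg (a i)) / 2 ^ Fintype.card κ) *
      ∏ i ∈ T, sg (y i) := by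
  rw [pi_expand ψ y]
  simp_rw [Finset.sum_div, Finset.sum_mul]
  rw [Finset.sum_comm]
  refine Finset.sum_congr rfl fun a _ => ?_
  have h1 : ∀ k, (if y k = a k then (1 : ℝ) else 0) = 1 / 2 * (1 + sg (a k) * sg (y k)) := by
    intro k
    rcases Int.units_eq_one_or (y k) with h | h <;>
      rcases Int.units_eq_one_or (a k) with h' | h' <;> simp [h, h'] <;> norm_num
  simp_rw [h1]
  rw [Finset.prod_mul_distrib, Finset.prod_one_add, Finset.prod_const, Finset.card_univ,
    Finset.powerset_univ, ← mul_assoc, Finset.mul_sum]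
  refine Finset.sum_congr rfl fun T _ => ?_
  rw [Finset.prod_mul_distrib, one_div, inv_pow]
  field_simp

/-- The known linear upper bound, used only to see that the supremum is finite. -/
lemma level_one_le {n d : ℕ} (f : (Fin n → Units ℤ) → Units ℤ)
    (hf : ∀ S : Finset (Fin n), d < S.card → ∑ x, sg (f x) * ∏ i ∈ S, sg (x i) = 0) :
    ∑ i : Fin n, (∑ x, sg (f x) * sg (x i)) / 2 ^ n ≤ d := by
  let c : Finset (Fin n) → ℝ := fun T => (∑ a, sg (f a) * ∏ i ∈ T, sg (a i)) / 2 ^ n
  have hinv : ∀ y, sg (f y) = ∑ T, c T * ∏ i ∈ T, sg (y i) := by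
    intro y
    have := fourier_inv (fun x => sg (f x)) y
    rwa [Fintype.card_fin] at this
  have h2n : (0 : ℝ) < 2 ^ n := by positivity
  have hpars : ∑ T, c T ^ 2 = 1 := by
    have h1 : ∑ y : Fin n → Units ℤ, sg (f y) * sg (f y) = 2 ^ n := by
      simp [sg_sq, Fintype.card_units_int]
    have h2 : ∑ y : Fin n → Units ℤ, sg (f y) * sg (f y) = ∑ T, c T ^ 2 * 2 ^ n := by
      have : ∀ y, sg (f y) * sg (f y) = ∑ T, c T * (sg (f y) * ∏ i ∈ T, sg (y i)) := by
        intro y
        conv_lhs => rw [hinv y]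
        rw [← hinv y]
        nth_rewrite 2 [hinv y]
        rw [Finset.mul_sum]
        exact Finset.sum_congr rfl fun T _ => by ring
      simp_rw [this]
      rw [Finset.sum_comm]
      refine Finset.sum_congr rfl fun T _ => ?_
      rw [← Finset.mul_sum]
      simp only [c]
      field_simp
    rw [h2, ← Finset.sum_mul] at h1
    exact mul_right_cancel₀ h2n.ne' (by rw [h1, one_mul])
  have hi : ∀ i : Fin n, (∑ x, sg (f x) * sg (x i)) / 2 ^ n ≤
      ∑ T : Finset (Fin n), if i ∈ T then c T ^ 2 else 0 := by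
    intro i
    let fl : (Fin n → Units ℤ) → (Fin n → Units ℤ) := fun x => Function.update x i (- x i)
    have hfl : Function.Involutive fl := by
      intro x; simp [fl]
    have hχ : ∀ (T : Finset (Fin n)) x, ∏ k ∈ T, sg (fl x k)
        = (if i ∈ T then -1 else 1) * ∏ k ∈ T, sg (x k) := by
      intro T x
      split_ifs with hT
      · rw [← Finset.mul_prod_erase T _ hT, ← Finset.mul_prod_erase T (fun k => sg (x k)) hT]
        have : ∏ k ∈ T.erase i, sg (fl x k) = ∏ k ∈ T.erase i, sg (x k) :=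
          Finset.prod_congr rfl fun k hk => by
            simp [fl, Function.update_of_ne (Finset.ne_of_mem_erase hk)]
        rw [this]; simp [fl]
      · rw [one_mul]
        refine Finset.prod_congr rfl fun k hk => ?_
        have : k ≠ i := fun h => hT (h ▸ hk)
        simp [fl, Function.update_of_ne this]
    have h1 : ∑ x, sg (f x) * sg (x i) = ∑ x, (sg (f x) - sg (f (fl x))) / 2 * sg (x i) := by
      have h2 : ∑ x, sg (f x) * sg (x i) = ∑ x, - (sg (f (fl x)) * sg (x i)) := by
        refine Fintype.sum_equiv hfl.toPerm _ _ fun x => ?_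
        simp only [Function.Involutive.coe_toPerm, hfl x]
        simp [fl]
      have h3 : ∑ x, (sg (f x) - sg (f (fl x))) / 2 * sg (x i)
          = (∑ x, sg (f x) * sg (x i) + ∑ x, - (sg (f (fl x)) * sg (x i))) / 2 := by
        rw [← Finset.sum_add_distrib, Finset.sum_div]
        exact Finset.sum_congr rfl fun x _ => by ring
      rw [h3, ← h2]; ring
    have h4 : ∑ x, (sg (f x) - sg (f (fl x))) / 2 * sg (x i)
        ≤ ∑ x, sg (f x) * ((sg (f x) - sg (f (fl x))) / 2) := by
      refine Finset.sum_le_sum fun x _ => ?_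
      rcases sg_cases (f x) with h | h <;> rcases sg_cases (f (fl x)) with h' | h' <;>
        rcases sg_cases (x i) with h'' | h'' <;> rw [h, h', h''] <;> norm_num
    have h5 : ∑ x, sg (f x) * ((sg (f x) - sg (f (fl x))) / 2)
        = ∑ T : Finset (Fin n), (if i ∈ T then c T ^ 2 else 0) * 2 ^ n := by
      have : ∀ x, sg (f x) * ((sg (f x) - sg (f (fl x))) / 2) = ∑ T : Finset (Fin n),
          (if i ∈ T then c T else 0) * (sg (f x) * ∏ k ∈ T, sg (x k)) := by
        intro x
        have h6 : (sg (f x) - sg (f (fl x))) / 2 = ∑ T : Finset (Fin n),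
            (if i ∈ T then c T else 0) * ∏ k ∈ T, sg (x k) := by
          rw [hinv x, hinv (fl x), ← Finset.sum_sub_distrib, Finset.sum_div]
          refine Finset.sum_congr rfl fun T _ => ?_
          rw [hχ]; split_ifs <;> ring
        rw [h6, Finset.mul_sum]
        exact Finset.sum_congr rfl fun T _ => by ring
      simp_rw [this]
      rw [Finset.sum_comm]
      refine Finset.sum_congr rfl fun T _ => ?_
      rw [← Finset.mul_sum]
      split_ifs
      · simp only [c]; field_simp
      · simp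
    rw [div_le_iff₀ h2n, Finset.sum_mul, h1, ← h5]
    exact h4
  refine (Finset.sum_le_sum fun i _ => hi i).trans ?_
  rw [Finset.sum_comm]
  calc ∑ T : Finset (Fin n), ∑ i : Fin n, (if i ∈ T then c T ^ 2 else 0)
      ≤ ∑ T : Finset (Fin n), d * c T ^ 2 := by
        refine Finset.sum_le_sum fun T _ => ?_
        rw [Finset.sum_ite_mem, Finset.univ_inter, Finset.sum_const, nsmul_eq_mul]
        by_cases hT : d < T.card
        · simp [c, hf T hT]
        · exact mul_le_mul_of_nonneg_right (by exact_mod_cast not_lt.mp hT) (sq_nonneg _)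
    _ = d := by rw [← Finset.mul_sum, hpars, mul_one]

end Vale.Agent.P047
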