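import Vale.Agent.P047.Classes

/-!
The determinant gadget: a fair sign that costs one block less than the cell it lives on.
-/

namespace Vale.Agent.P047

open Finset

lemma perm_sum {C X : Type} [Fintype C] [DecidableEq C] (c : X → C) (ω : C → X)
    (F : Equiv.Perm C → ℝ) [Decidable (Function.Bijective (c ∘ ω))] :
    ∑ τ : Equiv.Perm C, F τ * ∏ k, (if c (ω k) = τ k then (1 : ℝ) else 0)
      = if h : Function.Bijective (c ∘ ω) then F (Equiv.ofBijective _ h) else 0 := by
  split_ifs with h
  · rw [Finset.sum_eq_single (Equiv.ofBijective _ h)]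
    · simp
    · intro τ _ hτ
      have : ∃ k, c (ω k) ≠ τ k := by
        by_contra hc
        push Not at hc
        exact hτ (Equiv.ext fun k => (hc k).symm)
      obtain ⟨k, hk⟩ := this
      rw [Finset.prod_eq_zero (Finset.mem_univ k) (by simp [hk]), mul_zero]
    · simp
  · refine Finset.sum_eq_zero fun τ _ => ?_
    have : ∃ k, c (ω k) ≠ τ k := by
      by_contra hc
      push Not at hc
      apply h
      have : c ∘ ω = τ := funext hc
      rw [this]; exact τ.bijective
    obtain ⟨k, hk⟩ := this
    rw [Finset.prod_eq_zero (Finset.mem_univ k) (by simp [hk]), mul_zero]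

/-- The data produced by a gadget. -/
structure Gadget (n d : ℕ) (vt ρ loss : ℝ) where
  Z : Type
  fZ : Fintype Z
  M : Model Z
  Λ : Type
  fΛ : Fintype Λ
  dΛ : DecidableEq Λ
  g : Z → Λ
  σ : Λ → ℝ
  r : Λ → Bool
  y : Z → Units ℤ
  all : M.All (n + d)
  save : ∀ l, r l = true → (fun z => sg (y z) * (if g z = l then 1 else 0)) ∈ M.V n
  fair0 : ∀ l, r l = true → ∑ z, M.p z * (sg (y z) * (if g z = l then 1 else 0)) = 0
  fair1 : ∀ l, r l = true → ∑ z, M.p z * (M.s z * (sg (y z) * (if g z = l then 1 else 0))) = 0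
  var : ∑ z, M.p z * M.s z ^ 2 = vt
  prob : ∑ z, M.p z * (if r (g z) = true then 1 else 0) = ρ
  lost : ∑ z, M.p z * (M.s z - σ (g z)) ^ 2 ≤ loss

lemma exists_gadget {X : Type} [Fintype X] (M : Model X) {d : ℕ} (hM : M.All d)
    {C : Type} [Fintype C] [DecidableEq C] [Nontrivial C] (c : X → C) (t : C → ℝ) {p0 A : ℝ}
    (hp0 : 0 < p0) (hmass : ∀ a, p0 ≤ ∑ x, M.p x * (if c x = a then 1 else 0))
    (hcent : ∀ a, ∑ x, M.p x * (if c x = a then 1 else 0) * (M.s x - t a) = 0)
    (hA : ∑ a, (∑ x, M.p x * (if c x = a then 1 else 0) * (M.s x - t a) ^ 2) /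
        (∑ x, M.p x * (if c x = a then 1 else 0)) ≤ A) :
    ∃ ρ : ℝ, p0 ^ Fintype.card C ≤ ρ ∧ Nonempty (Gadget ((Fintype.card C - 1) * d) d
      (Fintype.card C * ∑ x, M.p x * M.s x ^ 2) ρ (ρ * A)) := by
  classical
  let π : C → ℝ := fun a => ∑ x, M.p x * (if c x = a then 1 else 0)
  have hπ : ∀ a, 0 < π a := fun a => lt_of_lt_of_le hp0 (hmass a)
  let R : (C → X) → Prop := fun ω => Function.Bijective (c ∘ ω)
  let g : (C → X) → Option (C → X) := fun ω => if R ω then none else some ω
  let y : (C → X) → Units ℤ := fun ω =>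
    if h : R ω then Equiv.Perm.sign (Equiv.ofBijective _ h) else 1
  let mat : (C → X) → Matrix C C ℝ := fun ω => Matrix.of fun a k => if c (ω k) = a then 1 else 0
  have hg : ∀ ω, g ω = none ↔ R ω := by
    intro ω; simp only [g]; split_ifs with h <;> simp [h]
  have hdet : ∀ ω, sg (y ω) * (if g ω = none then 1 else 0) = (mat ω).det := by
    intro ω
    rw [Matrix.det_apply']
    have := perm_sum c ω (fun τ => sg (Equiv.Perm.sign τ))
    simp only [mat, Matrix.of_apply]
    refine Eq.trans ?_ this.symm
    by_cases h : R ω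
    · rw [if_pos ((hg ω).mpr h), mul_one, dif_pos h]
      simp only [y]
      rw [dif_pos h]
    · rw [if_neg ((hg ω).not.mpr h), mul_zero, dif_neg h]
  have hind : ∀ ω, (if g ω = none then (1 : ℝ) else 0) =
      ∑ τ : Equiv.Perm C, ∏ k, (if c (ω k) = τ k then (1 : ℝ) else 0) := by
    intro ω
    have := perm_sum c ω (fun _ => 1)
    simp only [one_mul] at this
    rw [this]
    by_cases h : R ω
    · rw [if_pos ((hg ω).mpr h), dif_pos h]
    · rw [if_neg ((hg ω).not.mpr h), dif_neg h]
  obtain ⟨a0, a1, h01⟩ := exists_pair_ne C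
  have hcard : 1 ≤ Fintype.card C := Fintype.card_pos
  -- antisymmetry
  have hanti : ∀ Φ : (C → X) → ℝ, (∀ ω, Φ (ω ∘ Equiv.swap a0 a1) = Φ ω) →
      ∑ ω, Φ ω * (mat ω).det = 0 := by
    intro Φ hΦ
    have h1 : ∑ ω, Φ ω * (mat ω).det = ∑ ω, Φ ω * - (mat ω).det := by
      refine Fintype.sum_equiv (Equiv.arrowCongr (Equiv.swap a0 a1) (Equiv.refl X)) _ _ fun ω => ?_
      have e : (Equiv.arrowCongr (Equiv.swap a0 a1) (Equiv.refl X)) ω = ω ∘ Equiv.swap a0 a1 := by
        funext k; simp
      rw [e, hΦ]
      have : mat (ω ∘ Equiv.swap a0 a1) = (mat ω).submatrix id (Equiv.swap a0 a1) := by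
        ext a k; simp [mat]
      rw [this, Matrix.det_permute', Equiv.Perm.sign_swap h01]
      simp
    simp only [mul_neg, Finset.sum_neg_distrib] at h1
    linarith
  have hρ : ∑ ω : C → X, (∏ k, M.p (ω k)) * (if g ω = none then (1 : ℝ) else 0)
      = ∑ _τ : Equiv.Perm C, ∏ a, π a := by
    simp_rw [hind, Finset.mul_sum]
    rw [Finset.sum_comm]
    refine Finset.sum_congr rfl fun τ _ => ?_
    rw [sum_pi_prod M.p (fun k x => if c x = τ k then (1 : ℝ) else 0)]
    exact Equiv.prod_comp τ π
  refine ⟨∑ _τ : Equiv.Perm C, ∏ a, π a, ?_, ⟨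
    { Z := C → X
      fZ := inferInstance
      M := M.pi C
      Λ := Option (C → X)
      fΛ := inferInstance
      dΛ := inferInstance
      g := g
      σ := fun l => l.elim (∑ a, t a) (fun ω => ∑ k, M.s (ω k))
      r := fun l => decide (l = none)
      y := y
      all := ?_
      save := ?_
      fair0 := ?_
      fair1 := ?_
      var := ?_
      prob := ?_
      lost := ?_ }⟩⟩
  · have h1 : p0 ^ Fintype.card C ≤ ∏ a, π a := by
      rw [← Finset.card_univ, ← Finset.prod_const]
      exact Finset.prod_le_prod (fun _ _ => hp0.le) fun a _ => hmass a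
    refine h1.trans ?_
    exact Finset.single_le_sum (f := fun _ : Equiv.Perm C => ∏ a, π a)
      (fun _ _ => Finset.prod_nonneg fun a _ => (hπ a).le) (Finset.mem_univ 1)
  · have : (Fintype.card C - 1) * d + d = Fintype.card C * d := by
      obtain ⟨k, hk⟩ := Nat.exists_eq_add_of_le hcard
      rw [hk, Nat.add_sub_cancel_left]; ring
    rw [this]
    exact Model.pi_All hM C
  · intro l hl
    have hl' : l = none := by simpa using hl
    subst hl'
    simp_rw [hdet]
    have h1 : ∀ ω, (mat ω).det = ∑ τ : Equiv.Perm C, sg (Equiv.Perm.sign τ) *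
        ∏ k, (if τ k = a0 then 1 else (if c (ω k) = τ k then (1 : ℝ) else 0)) := by
      intro ω
      have h2 := Matrix.det_updateRow_sum (mat ω) a0 (fun _ => 1)
      rw [one_smul] at h2
      rw [← h2, Matrix.det_apply']
      refine Finset.sum_congr rfl fun τ _ => ?_
      congr 1
      refine Finset.prod_congr rfl fun k _ => ?_
      rw [Matrix.updateRow_apply]
      by_cases h3 : τ k = a0
      · simp only [h3, if_true]
        rw [Finset.sum_apply]
        simp [mat]
      · simp [h3, mat]
    simp_rw [h1]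
    refine Model.V_sum _ _ fun τ _ => Model.V_cmul _ _ ?_
    have := Model.pi_prod_mem M C (n := fun k => if τ k = a0 then 0 else d)
      (φ := fun k x => if τ k = a0 then 1 else (if c x = τ k then (1 : ℝ) else 0))
      (fun k => by
        split_ifs
        · exact Model.V_const _ _ _
        · exact hM _)
    have e : ∑ k, (if τ k = a0 then 0 else d) = (Fintype.card C - 1) * d := by
      rw [Equiv.sum_comp τ (fun a => if a = a0 then 0 else d)]
      rw [Finset.sum_ite, Finset.sum_const_zero, zero_add, Finset.sum_const, smul_eq_mul,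
        Finset.filter_ne', Finset.card_erase_of_mem (Finset.mem_univ _), Finset.card_univ]
    rw [e] at this
    exact this
  · intro l hl
    have hl' : l = none := by simpa using hl
    subst hl'
    simp_rw [hdet]
    exact hanti _ fun ω => Equiv.prod_comp (Equiv.swap a0 a1) (fun k => M.p (ω k))
  · intro l hl
    have hl' : l = none := by simpa using hl
    subst hl'
    simp_rw [hdet, ← mul_assoc]
    refine hanti _ fun ω => ?_
    simp only [Model.pi_p, Model.pi_s, Function.comp]
    rw [Equiv.prod_comp (Equiv.swap a0 a1) (fun k => M.p (ω k)),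
      Equiv.sum_comp (Equiv.swap a0 a1) (fun k => M.s (ω k))]
  · exact sum_pi_sq_iid M.p M.s M.sum_p M.sum_ps
  · simpa using hρ
  · let e : X → ℝ := fun x => M.s x - t (c x)
    have h1 : ∀ ω : C → X, (∑ k, M.s (ω k) -
        (g ω).elim (∑ a, t a) (fun ω => ∑ k, M.s (ω k))) ^ 2
        = (if g ω = none then (1 : ℝ) else 0) * (∑ k, e (ω k)) ^ 2 := by
      intro ω
      by_cases h : R ω
      · rw [(hg ω).mpr h]
        simp only [Option.elim, if_true, one_mul, e, Finset.sum_sub_distrib]
        rw [← Equiv.sum_comp (Equiv.ofBijective _ h) t]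
        rfl
      · have : g ω = some ω := by simp [g, h]
        simp [this]
    simp only [Model.pi_p, Model.pi_s]
    simp_rw [h1, hind, Finset.sum_mul, Finset.mul_sum]
    rw [Finset.sum_comm]
    refine Finset.sum_le_sum fun τ _ => ?_
    simp_rw [← mul_assoc, ← Finset.prod_mul_distrib]
    rw [sum_pi_sq (fun k x => M.p x * (if c x = τ k then (1 : ℝ) else 0)) e (fun k => by
      refine Eq.trans ?_ (hcent (τ k))
      refine Finset.sum_congr rfl fun x _ => ?_
      by_cases hx : c x = τ k <;> simp [e, hx])]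
    have h2 : ∀ j : C, ∏ k, ∑ x, M.p x * (if c x = τ k then (1 : ℝ) else 0) *
        (if k = j then e x ^ 2 else 1) = (∏ a, π a) *
        ((∑ x, M.p x * (if c x = τ j then 1 else 0) * (M.s x - t (τ j)) ^ 2) / π (τ j)) := by
      intro j
      have h3 : ∀ k, ∑ x, M.p x * (if c x = τ k then (1 : ℝ) else 0) *
          (if k = j then e x ^ 2 else 1) = π (τ k) * (if k = j then
            (∑ x, M.p x * (if c x = τ j then 1 else 0) * (M.s x - t (τ j)) ^ 2) / π (τ j)
            else 1) := by
        intro k
        split_ifs with hk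
        · subst hk
          rw [mul_div_cancel₀ _ (hπ _).ne']
          refine Finset.sum_congr rfl fun x _ => ?_
          by_cases hx : c x = τ k <;> simp [e, hx]
        · simp [π]
      simp_rw [h3]
      rw [Finset.prod_mul_distrib, Equiv.prod_comp τ π]
      simp
    simp_rw [h2]
    rw [← Finset.mul_sum]
    refine mul_le_mul_of_nonneg_left ?_ (Finset.prod_nonneg fun a _ => (hπ a).le)
    rw [Equiv.sum_comp τ (fun a => (∑ x, M.p x * (if c x = a then 1 else 0) *
      (M.s x - t a) ^ 2) / π a)]
    exact hA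

end Vale.Agent.P047
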