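import Vale.Agent.P047.Basic

/-!
Operations on labelled models: products, powers, negation, a coin, coarsening, composition.
-/

namespace Vale.Agent.P047

open Finset

lemma avg_sum_type {ι κ : Type} [Fintype ι] [DecidableEq ι] [Fintype κ] [DecidableEq κ]
    (F : (ι → Units ℤ) → (κ → Units ℤ) → ℝ) :
    avg (fun x : ι ⊕ κ → Units ℤ => F (fun i => x (Sum.inl i)) (fun j => x (Sum.inr j)))
      = avg (fun a => avg (fun b => F a b)) := by
  unfold avg
  refine (Fintype.sum_equiv (Equiv.sumArrowEquivProdArrow ι κ (Units ℤ)) _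
    (fun z => (1 / 2 : ℝ) ^ Fintype.card (ι ⊕ κ) * F z.1 z.2) (fun x => rfl)).trans ?_
  rw [Fintype.sum_prod_type]
  refine Finset.sum_congr rfl fun a _ => ?_
  rw [Finset.mul_sum]
  refine Finset.sum_congr rfl fun b _ => ?_
  rw [Fintype.card_sum, pow_add]; ring

lemma avg_add {ι : Type} [Fintype ι] [DecidableEq ι] (f g : (ι → Units ℤ) → ℝ) :
    avg (fun x => f x + g x) = avg f + avg g := by
  simp [avg, mul_add, Finset.sum_add_distrib]

lemma avg_cmul {ι : Type} [Fintype ι] [DecidableEq ι] (c : ℝ) (f : (ι → Units ℤ) → ℝ) :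
    avg (fun x => c * f x) = c * avg f := by
  unfold avg; rw [Finset.mul_sum]; exact Finset.sum_congr rfl fun x _ => by ring

lemma avg_sum {ι κ : Type} [Fintype ι] [DecidableEq ι] (T : Finset κ)
    (f : κ → (ι → Units ℤ) → ℝ) :
    avg (fun x => ∑ k ∈ T, f k x) = ∑ k ∈ T, avg (f k) := by
  unfold avg; rw [Finset.sum_comm]; exact Finset.sum_congr rfl fun x _ => by rw [Finset.mul_sum]

lemma avg_prod_type {ι κ : Type} [Fintype ι] [DecidableEq ι] [Fintype κ] [DecidableEq κ]
    (F : κ → (ι → Units ℤ) → ℝ) :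
    avg (fun x : κ × ι → Units ℤ => ∏ k, F k (fun i => x (k, i))) = ∏ k, avg (F k) := by
  unfold avg
  have h2 := Finset.prod_univ_sum (fun _ : κ => (univ : Finset (ι → Units ℤ)))
    (fun k a => (1 / 2 : ℝ) ^ Fintype.card ι * F k a)
  rw [Fintype.piFinset_univ] at h2
  rw [h2]
  refine Fintype.sum_equiv (Equiv.curry κ ι (Units ℤ)) _ _ fun x => ?_
  rw [Finset.prod_mul_distrib, Finset.prod_const, Fintype.card_prod, ← pow_mul, mul_comm (Fintype.card ι)]
  rfl

/-- Product formula for independent coordinates. -/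
lemma sum_pi_prod {κ X : Type} [Fintype κ] [DecidableEq κ] [Fintype X] (p : X → ℝ)
    (f : κ → X → ℝ) :
    ∑ ω : κ → X, (∏ k, p (ω k)) * ∏ k, f k (ω k) = ∏ k, ∑ x, p x * f k x := by
  have h2 := Finset.prod_univ_sum (fun _ : κ => (univ : Finset X)) (fun k a => p a * f k a)
  rw [Fintype.piFinset_univ] at h2
  rw [h2]
  refine Finset.sum_congr rfl fun ω _ => ?_
  rw [Finset.prod_mul_distrib]

lemma pi_expand {κ X : Type} [Fintype κ] [DecidableEq κ] [Fintype X] [DecidableEq X]
    (φ : (κ → X) → ℝ) (ω : κ → X) :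
    φ ω = ∑ a : κ → X, φ a * ∏ k, (if ω k = a k then (1 : ℝ) else 0) := by
  have : ∀ a : κ → X, ∏ k, (if ω k = a k then (1 : ℝ) else 0) = if ω = a then 1 else 0 := by
    intro a
    rw [Finset.prod_boole]
    simp [funext_iff]
  simp [this]

namespace Model

variable {X Y : Type} [Fintype X] [Fintype Y]

/-- Independent product. -/
noncomputable def prod (M : Model X) (N : Model Y) : Model (X × Y) where
  ι := M.ι ⊕ N.ι
  fι := @instFintypeSum _ _ M.fι N.fι
  dι := @instDecidableEqSum _ _ M.dι N.dι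
  g := fun x => (M.g (fun i => x (Sum.inl i)), N.g (fun j => x (Sum.inr j)))
  p := fun z => M.p z.1 * N.p z.2
  s := fun z => M.s z.1 + N.s z.2
  law0 := fun φ => by
    let _ := M.fι; let _ := M.dι; let _ := N.fι; let _ := N.dι
    rw [avg_sum_type (fun a b => φ (M.g a, N.g b))]
    have e0 : ∀ x : X, avg (fun b => φ (x, N.g b)) = ∑ y, N.p y * φ (x, y) :=
      fun x => N.law0 (fun y => φ (x, y))
    simp_rw [e0]
    rw [M.law0 (fun x => ∑ y, N.p y * φ (x, y)), Fintype.sum_prod_type]
    refine Finset.sum_congr rfl fun x _ => ?_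
    rw [Finset.mul_sum]
    exact Finset.sum_congr rfl fun y _ => by ring
  law1 := fun φ => by
    let _ := M.fι; let _ := M.dι; let _ := N.fι; let _ := N.dι
    have h1 : ∀ x : M.ι ⊕ N.ι → Units ℤ,
        cs x = cs (fun i => x (Sum.inl i)) + cs (fun j => x (Sum.inr j)) := by
      intro x; simp [cs, Fintype.sum_sum_type]
    simp_rw [h1]
    rw [avg_sum_type (fun a b => (cs a + cs b) * φ (M.g a, N.g b))]
    have e0 : ∀ x : X, avg (fun b => φ (x, N.g b)) = ∑ y, N.p y * φ (x, y) :=
      fun x => N.law0 (fun y => φ (x, y))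
    have e1 : ∀ x : X, avg (fun b => cs b * φ (x, N.g b)) = ∑ y, N.p y * (N.s y * φ (x, y)) :=
      fun x => N.law1 (fun y => φ (x, y))
    simp_rw [add_mul, avg_add, avg_cmul, e0, e1]
    rw [M.law1 (fun x => ∑ y, N.p y * φ (x, y)),
      M.law0 (fun x => ∑ y, N.p y * (N.s y * φ (x, y))), Fintype.sum_prod_type,
      ← Finset.sum_add_distrib]
    refine Finset.sum_congr rfl fun x _ => ?_
    simp only [Finset.mul_sum, ← Finset.sum_add_distrib]
    exact Finset.sum_congr rfl fun y _ => by ring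

@[simp] lemma prod_p (M : Model X) (N : Model Y) (z : X × Y) :
    (M.prod N).p z = M.p z.1 * N.p z.2 := rfl
@[simp] lemma prod_s (M : Model X) (N : Model Y) (z : X × Y) :
    (M.prod N).s z = M.s z.1 + N.s z.2 := rfl

lemma prod_fst (M : Model X) (N : Model Y) {n : ℕ} {φ : X → ℝ} (h : φ ∈ M.V n) :
    (fun z : X × Y => φ z.1) ∈ (M.prod N).V n := by
  have := Deg_comp (k := 1) (κ := M.ι ⊕ N.ι) (fun x i => x (Sum.inl i))
    (fun i => coord_mem_Deg (Sum.inl i)) h
  rw [mul_one] at this
  exact this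

lemma prod_snd (M : Model X) (N : Model Y) {n : ℕ} {φ : Y → ℝ} (h : φ ∈ N.V n) :
    (fun z : X × Y => φ z.2) ∈ (M.prod N).V n := by
  have := Deg_comp (k := 1) (κ := M.ι ⊕ N.ι) (fun x i => x (Sum.inr i))
    (fun i => coord_mem_Deg (Sum.inr i)) h
  rw [mul_one] at this
  exact this

/-- Every function of the label has degree at most `d`. -/
def All (M : Model X) (d : ℕ) : Prop := ∀ φ : X → ℝ, φ ∈ M.V d

lemma prod_mem (M : Model X) (N : Model Y) {a b : ℕ} (hN : N.All b) (φ : X × Y → ℝ)
    (h : ∀ y, (fun x => φ (x, y)) ∈ M.V a) : φ ∈ (M.prod N).V (a + b) := by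
  classical
  have : φ = fun z => ∑ y : Y, φ (z.1, y) * (if z.2 = y then 1 else 0) := by
    funext z; simp
  rw [this]
  exact V_sum _ _ fun y _ => V_mul _ (prod_fst M N (h y))
    (prod_snd M N (hN fun y' => if y' = y then 1 else 0))

lemma prod_All {M : Model X} {N : Model Y} {a b : ℕ} (hM : M.All a) (hN : N.All b) :
    (M.prod N).All (a + b) := fun φ => prod_mem M N hN φ fun _ => hM _

/-- Independent power. -/
noncomputable def pi (M : Model X) (κ : Type) [Fintype κ] [DecidableEq κ] : Model (κ → X) where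
  ι := κ × M.ι
  fι := @instFintypeProd _ _ _ M.fι
  dι := @instDecidableEqProd _ _ _ M.dι
  g := fun x k => M.g (fun i => x (k, i))
  p := fun ω => ∏ k, M.p (ω k)
  s := fun ω => ∑ k, M.s (ω k)
  law0 := fun φ => by
    classical
    let _ := M.fι; let _ := M.dι
    simp_rw [pi_expand φ (fun k => M.g _)]
    rw [avg_sum]
    refine Finset.sum_congr rfl fun a _ => ?_
    rw [avg_cmul, avg_prod_type (fun k x => if M.g x = a k then (1 : ℝ) else 0), mul_comm]
    congr 1
    refine Finset.prod_congr rfl fun k _ => ?_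
    rw [M.law0 (fun y => if y = a k then (1 : ℝ) else 0)]
    simp
  law1 := fun φ => by
    classical
    let _ := M.fι; let _ := M.dι
    have h1 : ∀ x : κ × M.ι → Units ℤ, cs x = ∑ k, cs (fun i => x (k, i)) := by
      intro x; simp [cs, Fintype.sum_prod_type]
    simp_rw [pi_expand φ (fun k => M.g _), h1, Finset.mul_sum]
    rw [avg_sum]
    refine Finset.sum_congr rfl fun a _ => ?_
    have h2 : ∀ x : κ × M.ι → Units ℤ,
        (∑ k, cs (fun i => x (k, i))) * (φ a * ∏ k, (if M.g (fun i => x (k, i)) = a k then (1 : ℝ) else 0))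
        = φ a * ∑ j, ∏ k, ((if k = j then cs (fun i => x (k, i)) else 1) *
            (if M.g (fun i => x (k, i)) = a k then (1 : ℝ) else 0)) := by
      intro x
      simp only [Finset.prod_mul_distrib, Finset.prod_ite_eq', Finset.mem_univ, if_true,
        ← Finset.sum_mul]
      ring
    simp_rw [h2]
    rw [avg_cmul, avg_sum]
    have h3 : ∀ j : κ, avg (fun x : κ × M.ι → Units ℤ =>
        ∏ k, ((if k = j then cs (fun i => x (k, i)) else 1) *
            (if M.g (fun i => x (k, i)) = a k then (1 : ℝ) else 0)))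
        = M.s (a j) * ∏ k, M.p (a k) := by
      intro j
      rw [avg_prod_type (fun k x => (if k = j then cs x else 1) *
        (if M.g x = a k then (1 : ℝ) else 0))]
      have : ∀ k, avg (fun x => (if k = j then cs x else 1) *
          (if M.g x = a k then (1 : ℝ) else 0)) = (if k = j then M.s (a k) else 1) * M.p (a k) := by
        intro k
        split_ifs with hk
        · rw [M.law1 (fun y => if y = a k then (1 : ℝ) else 0)]
          simp [mul_comm]
        · simp only [one_mul]
          rw [M.law0 (fun y => if y = a k then (1 : ℝ) else 0)]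
          simp
      simp_rw [this]
      rw [Finset.prod_mul_distrib]
      simp
    simp_rw [h3]
    rw [← Finset.sum_mul]
    ring

@[simp] lemma pi_p (M : Model X) (κ : Type) [Fintype κ] [DecidableEq κ] (ω : κ → X) :
    (M.pi κ).p ω = ∏ k, M.p (ω k) := rfl
@[simp] lemma pi_s (M : Model X) (κ : Type) [Fintype κ] [DecidableEq κ] (ω : κ → X) :
    (M.pi κ).s ω = ∑ k, M.s (ω k) := rfl

lemma pi_coord (M : Model X) (κ : Type) [Fintype κ] [DecidableEq κ] {n : ℕ} {φ : X → ℝ}
    (h : φ ∈ M.V n) (k : κ) : (fun ω : κ → X => φ (ω k)) ∈ (M.pi κ).V n := by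
  have := Deg_comp (k := 1) (κ := κ × M.ι) (fun x i => x (k, i))
    (fun i => coord_mem_Deg (k, i)) h
  rw [mul_one] at this
  exact this

lemma pi_prod_mem (M : Model X) (κ : Type) [Fintype κ] [DecidableEq κ] {n : κ → ℕ}
    {φ : κ → X → ℝ} (h : ∀ k, φ k ∈ M.V (n k)) :
    (fun ω : κ → X => ∏ k, φ k (ω k)) ∈ (M.pi κ).V (∑ k, n k) :=
  V_prod _ _ fun k _ => pi_coord M κ (h k) k

lemma pi_All {M : Model X} {d : ℕ} (hM : M.All d) (κ : Type) [Fintype κ] [DecidableEq κ] :
    (M.pi κ).All (Fintype.card κ * d) := by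
  classical
  intro φ
  have : φ = fun ω => ∑ a : κ → X, φ a * ∏ k, (if ω k = a k then (1 : ℝ) else 0) :=
    funext (pi_expand φ)
  rw [this]
  refine V_sum _ _ fun a _ => V_cmul _ _ ?_
  have := pi_prod_mem M κ (n := fun _ => d) (φ := fun k x => if x = a k then (1 : ℝ) else 0)
    (fun k => hM _)
  simpa using this

/-- Negating all the cube variables. -/
noncomputable def neg (M : Model X) : Model X where
  ι := M.ι
  fι := M.fι
  dι := M.dι
  g := fun x => M.g (fun i => - x i)
  p := M.p
  s := fun x => - M.s x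
  law0 := fun φ => by
    let _ := M.fι; let _ := M.dι
    rw [← M.law0 φ]
    unfold avg
    exact Fintype.sum_equiv (Equiv.neg (M.ι → Units ℤ)) _ _ fun x => rfl
  law1 := fun φ => by
    let _ := M.fι; let _ := M.dι
    have := M.law1 (fun x => - φ x)
    simp only [mul_neg, neg_mul] at this ⊢
    rw [← this]
    unfold avg
    refine Fintype.sum_equiv (Equiv.neg (M.ι → Units ℤ)) _ _ fun x => ?_
    simp only [cs, Equiv.neg_apply, Pi.neg_apply, sg_neg, Finset.sum_neg_distrib, neg_mul, neg_neg]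
    rfl

@[simp] lemma neg_p (M : Model X) (x : X) : M.neg.p x = M.p x := rfl
@[simp] lemma neg_s (M : Model X) (x : X) : M.neg.s x = - M.s x := rfl

lemma neg_All {M : Model X} {d : ℕ} (hM : M.All d) : M.neg.All d := by
  intro φ
  have := Deg_comp (k := 1) (κ := M.ι) (fun x i => - x i)
    (fun i => by
      have := Submodule.neg_mem _ (coord_mem_Deg i)
      simp only [sg_neg]
      exact this) (hM φ)
  rw [mul_one] at this
  exact this

/-- One fair sign. -/
noncomputable def coin : Model (Units ℤ) where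
  ι := Unit
  fι := inferInstance
  dι := inferInstance
  g := fun x => x ()
  p := fun _ => 1 / 2
  s := sg
  law0 := fun φ => by
    unfold avg
    refine Fintype.sum_equiv (Equiv.funUnique Unit (Units ℤ)) _ _ fun x => ?_
    simp
  law1 := fun φ => by
    unfold avg
    refine Fintype.sum_equiv (Equiv.funUnique Unit (Units ℤ)) _ _ fun x => ?_
    simp [cs]

@[simp] lemma coin_p (u : Units ℤ) : coin.p u = 1 / 2 := rfl
@[simp] lemma coin_s (u : Units ℤ) : coin.s u = sg u := rfl

lemma units_expand (φ : Units ℤ → ℝ) :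
    φ = fun u => (φ 1 + φ (-1)) / 2 + (φ 1 - φ (-1)) / 2 * sg u := by
  funext u
  rcases Int.units_eq_one_or u with h | h <;> simp [h] <;> ring

lemma All_units {M : Model (Units ℤ)} {d : ℕ} (h : sg ∈ M.V d) : M.All d := by
  intro φ
  rw [units_expand φ]
  exact V_add _ (V_const _ _ _) (V_cmul _ _ h)

lemma coin_All : coin.All 1 := All_units (coord_mem_Deg ())

/-- Coarsening a label along `h`, given the new law and score. -/
noncomputable def map (M : Model X) (h : X → Y) (p s : Y → ℝ)
    (h0 : ∀ φ : Y → ℝ, ∑ x, M.p x * φ (h x) = ∑ y, p y * φ y)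
    (h1 : ∀ φ : Y → ℝ, ∑ x, M.p x * (M.s x * φ (h x)) = ∑ y, p y * (s y * φ y)) : Model Y where
  ι := M.ι
  fι := M.fι
  dι := M.dι
  g := fun x => h (M.g x)
  p := p
  s := s
  law0 := fun φ => by rw [← h0, ← M.law0 (fun x => φ (h x))]
  law1 := fun φ => by rw [← h1, ← M.law1 (fun x => φ (h x))]

/-- Coarsening keeps at least the variance seen by any test function. -/
lemma exists_map (M : Model X) (h : X → Y) {d : ℕ}
    (hd : ∀ φ : Y → ℝ, (fun x => φ (h x)) ∈ M.V d) (σ : Y → ℝ) :
    ∃ N : Model Y, N.All d ∧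
      ∑ x, M.p x * M.s x ^ 2 - ∑ x, M.p x * (M.s x - σ (h x)) ^ 2 ≤ ∑ y, N.p y * N.s y ^ 2 := by
  classical
  let p : Y → ℝ := fun y => ∑ x, if h x = y then M.p x else 0
  let q : Y → ℝ := fun y => ∑ x, if h x = y then M.p x * M.s x else 0
  have hpq : ∀ y, p y * (q y / p y) = q y := by
    intro y
    by_cases hp : p y = 0
    · have hz : ∀ x ∈ (univ : Finset X), (if h x = y then M.p x else 0) = 0 := by
        refine (Finset.sum_eq_zero_iff_of_nonneg fun x _ => ?_).mp hp
        split_ifs
        · exact M.p_nonneg x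
        · exact le_rfl
      have : q y = 0 := by
        refine Finset.sum_eq_zero fun x hx => ?_
        have := hz x hx
        split_ifs at this ⊢ with hx'
        · simp [this]
        · rfl
      simp [this]
    · field_simp
  have h0 : ∀ φ : Y → ℝ, ∑ x, M.p x * φ (h x) = ∑ y, p y * φ y := by
    intro φ
    simp only [p, Finset.sum_mul]
    rw [Finset.sum_comm]
    refine Finset.sum_congr rfl fun x _ => ?_
    simp
  have h1 : ∀ φ : Y → ℝ, ∑ x, M.p x * (M.s x * φ (h x)) = ∑ y, p y * (q y / p y * φ y) := by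
    intro φ
    simp_rw [← mul_assoc, hpq]
    simp only [q, Finset.sum_mul]
    rw [Finset.sum_comm]
    refine Finset.sum_congr rfl fun x _ => ?_
    simp
  refine ⟨M.map h p (fun y => q y / p y) h0 h1, fun φ => hd φ, ?_⟩
  have e1 : ∑ x, M.p x * M.s x ^ 2 - ∑ x, M.p x * (M.s x - σ (h x)) ^ 2
      = 2 * ∑ x, M.p x * (M.s x * σ (h x)) - ∑ x, M.p x * (σ (h x)) ^ 2 := by
    rw [Finset.mul_sum, ← Finset.sum_sub_distrib, ← Finset.sum_sub_distrib]
    exact Finset.sum_congr rfl fun x _ => by ring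
  rw [e1, h1 σ, h0 (fun y => σ y ^ 2), Finset.mul_sum, ← Finset.sum_sub_distrib]
  refine Finset.sum_le_sum fun y _ => ?_
  have hp : 0 ≤ p y := Finset.sum_nonneg fun x _ => by
    split_ifs
    · exact M.p_nonneg x
    · exact le_rfl
  show 2 * (p y * (q y / p y * σ y)) - p y * σ y ^ 2 ≤ p y * (q y / p y) ^ 2
  have := mul_nonneg hp (sq_nonneg (q y / p y - σ y))
  nlinarith

end Model

end Vale.Agent.P047
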