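import Vale.Agent.P047.Ops

/-!
Finite probability lemmas: moments of independent sums.
-/

namespace Vale.Agent.P047

open Finset

lemma sum_pi {κ X : Type} [Fintype κ] [DecidableEq κ] [Fintype X] (f : κ → X → ℝ) :
    ∑ ω : κ → X, ∏ k, f k (ω k) = ∏ k, ∑ x, f k x := by
  have h2 := Finset.prod_univ_sum (fun _ : κ => (univ : Finset X)) f
  rw [Fintype.piFinset_univ] at h2
  exact h2.symm

/-- First moment with one marked coordinate. -/
lemma sum_pi_lin {κ X : Type} [Fintype κ] [DecidableEq κ] [Fintype X] (w : κ → X → ℝ)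
    (e : X → ℝ) :
    ∑ ω : κ → X, (∏ k, w k (ω k)) * ∑ k, e (ω k)
      = ∑ j, ∏ k, ∑ x, w k x * (if k = j then e x else 1) := by
  simp_rw [← sum_pi]
  rw [Finset.sum_comm]
  refine Finset.sum_congr rfl fun ω _ => ?_
  rw [Finset.mul_sum]
  refine Finset.sum_congr rfl fun j _ => ?_
  rw [Finset.prod_mul_distrib]
  simp

/-- Second moment of a sum of centred independent terms. -/
lemma sum_pi_sq {κ X : Type} [Fintype κ] [DecidableEq κ] [Fintype X] (w : κ → X → ℝ)
    (e : X → ℝ) (he : ∀ k, ∑ x, w k x * e x = 0) :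
    ∑ ω : κ → X, (∏ k, w k (ω k)) * (∑ k, e (ω k)) ^ 2
      = ∑ j, ∏ k, ∑ x, w k x * (if k = j then e x ^ 2 else 1) := by
  have h1 : ∀ ω : κ → X, (∏ k, w k (ω k)) * (∑ k, e (ω k)) ^ 2
      = ∑ j, ∑ j', ∏ k, (w k (ω k) * ((if k = j then e (ω k) else 1) *
          (if k = j' then e (ω k) else 1))) := by
    intro ω
    rw [sq, Finset.sum_mul_sum, Finset.mul_sum]
    refine Finset.sum_congr rfl fun j _ => ?_
    rw [Finset.mul_sum]
    refine Finset.sum_congr rfl fun j' _ => ?_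
    rw [Finset.prod_mul_distrib, Finset.prod_mul_distrib]
    simp
  simp_rw [h1]
  rw [Finset.sum_comm]
  refine Finset.sum_congr rfl fun j _ => ?_
  rw [Finset.sum_comm]
  have h2 : ∀ j' : κ, ∑ ω : κ → X, ∏ k, (w k (ω k) * ((if k = j then e (ω k) else 1) *
          (if k = j' then e (ω k) else 1)))
      = ∏ k, ∑ x, w k x * ((if k = j then e x else 1) * (if k = j' then e x else 1)) :=
    fun j' => sum_pi (fun k x => w k x * ((if k = j then e x else 1) * (if k = j' then e x else 1)))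
  simp_rw [h2]
  rw [Finset.sum_eq_single j]
  · refine Finset.prod_congr rfl fun k _ => Finset.sum_congr rfl fun x _ => ?_
    split_ifs <;> ring
  · intro j' _ hj'
    apply Finset.prod_eq_zero (Finset.mem_univ j)
    simp [hj'.symm, he]
  · simp

lemma sum_pi_sq_iid {κ X : Type} [Fintype κ] [DecidableEq κ] [Fintype X] (p e : X → ℝ)
    (hp : ∑ x, p x = 1) (he : ∑ x, p x * e x = 0) :
    ∑ ω : κ → X, (∏ k, p (ω k)) * (∑ k, e (ω k)) ^ 2
      = Fintype.card κ * ∑ x, p x * e x ^ 2 := by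
  rw [sum_pi_sq (fun _ => p) e (fun _ => he)]
  have : ∀ j : κ, ∏ k, ∑ x, p x * (if k = j then e x ^ 2 else 1) = ∑ x, p x * e x ^ 2 := by
    intro j
    have : ∀ k : κ, ∑ x, p x * (if k = j then e x ^ 2 else 1)
        = if k = j then ∑ x, p x * e x ^ 2 else 1 := by
      intro k; split_ifs <;> simp [hp]
    simp_rw [this]
    simp
  simp_rw [this]
  simp

lemma sum_fin_succ_pi {X : Type} [Fintype X] (m : ℕ) (F : (Fin (m + 1) → X) → ℝ) :
    ∑ ω, F ω = ∑ x : X, ∑ ω : Fin m → X, F (Fin.cons x ω) := by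
  rw [← Fintype.sum_prod_type']
  exact (Fintype.sum_equiv (Fin.consEquiv (fun _ => X)) _ _ (fun z => rfl)).symm

/-- Moments up to order four of an i.i.d. centred sum. -/
lemma pi_moments {X : Type} [Fintype X] (p e : X → ℝ) (hp : ∑ x, p x = 1)
    (he : ∑ x, p x * e x = 0) (m : ℕ) :
    (∑ ω : Fin m → X, ∏ k, p (ω k) = 1) ∧
    (∑ ω : Fin m → X, (∏ k, p (ω k)) * (∑ k, e (ω k)) = 0) ∧
    (∑ ω : Fin m → X, (∏ k, p (ω k)) * (∑ k, e (ω k)) ^ 2 = m * ∑ x, p x * e x ^ 2) ∧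
    (∑ ω : Fin m → X, (∏ k, p (ω k)) * (∑ k, e (ω k)) ^ 4
      = m * (∑ x, p x * e x ^ 4) + 3 * m * (m - 1) * (∑ x, p x * e x ^ 2) ^ 2) := by
  induction m with
  | zero => simp
  | succ m ih =>
    obtain ⟨h0, h1, h2, h4⟩ := ih
    simp only [sum_fin_succ_pi, Fin.prod_univ_succ, Fin.sum_univ_succ, Fin.cons_zero,
      Fin.cons_succ]
    set M3 := ∑ ω : Fin m → X, (∏ k, p (ω k)) * (∑ k, e (ω k)) ^ 3 with hM3
    set v := ∑ x, p x * e x ^ 2 with hv
    set μ := ∑ x, p x * e x ^ 4 with hμ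
    refine ⟨?_, ?_, ?_, ?_⟩
    · simp_rw [← Finset.mul_sum, h0]; simpa using hp
    · have : ∀ x, ∑ ω : Fin m → X, p x * (∏ k, p (ω k)) * (e x + ∑ k, e (ω k))
          = p x * e x := by
        intro x
        have : ∀ ω : Fin m → X, p x * (∏ k, p (ω k)) * (e x + ∑ k, e (ω k))
            = p x * e x * (∏ k, p (ω k)) + p x * ((∏ k, p (ω k)) * ∑ k, e (ω k)) := by
          intro ω; ring
        simp_rw [this, Finset.sum_add_distrib, ← Finset.mul_sum, h0, h1]; ring
      simp_rw [this]; exact he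
    · have : ∀ x, ∑ ω : Fin m → X, p x * (∏ k, p (ω k)) * (e x + ∑ k, e (ω k)) ^ 2
          = p x * e x ^ 2 + p x * (m * v) := by
        intro x
        have : ∀ ω : Fin m → X, p x * (∏ k, p (ω k)) * (e x + ∑ k, e (ω k)) ^ 2
            = p x * e x ^ 2 * (∏ k, p (ω k)) + 2 * p x * e x * ((∏ k, p (ω k)) * ∑ k, e (ω k))
              + p x * ((∏ k, p (ω k)) * (∑ k, e (ω k)) ^ 2) := by
          intro ω; ring
        simp_rw [this, Finset.sum_add_distrib, ← Finset.mul_sum, h0, h1, h2]; ring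
      simp_rw [this, Finset.sum_add_distrib, ← Finset.sum_mul, hp, ← hv]
      push_cast; ring
    · have : ∀ x, ∑ ω : Fin m → X, p x * (∏ k, p (ω k)) * (e x + ∑ k, e (ω k)) ^ 4
          = p x * e x ^ 4 + p x * e x ^ 2 * (6 * m * v) + p x * e x * (4 * M3)
            + p x * (m * μ + 3 * m * (m - 1) * v ^ 2) := by
        intro x
        have : ∀ ω : Fin m → X, p x * (∏ k, p (ω k)) * (e x + ∑ k, e (ω k)) ^ 4
            = p x * e x ^ 4 * (∏ k, p (ω k))
              + 4 * p x * e x ^ 3 * ((∏ k, p (ω k)) * ∑ k, e (ω k))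
              + 6 * p x * e x ^ 2 * ((∏ k, p (ω k)) * (∑ k, e (ω k)) ^ 2)
              + 4 * p x * e x * ((∏ k, p (ω k)) * (∑ k, e (ω k)) ^ 3)
              + p x * ((∏ k, p (ω k)) * (∑ k, e (ω k)) ^ 4) := by
          intro ω; ring
        simp_rw [this, Finset.sum_add_distrib, ← Finset.mul_sum, h0, h1, h2, h4, ← hM3]; ring
      simp_rw [this, Finset.sum_add_distrib, ← Finset.sum_mul, hp, he, ← hv, ← hμ]
      push_cast; ring

end Vale.Agent.P047
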