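import Vale.Agent.P047.Gadget

/-!
Many gadgets give a uniform random string whose non-trivial functions save many blocks of degree.
-/

namespace Vale.Agent.P047

open Finset

lemma fourier_expand {κ : Type} [Fintype κ] [DecidableEq κ] (ψ : (κ → Units ℤ) → ℝ)
    (hψ : ∑ a, ψ a = 0) : ∃ c : Finset κ → ℝ, c ∅ = 0 ∧
      ∀ y, ψ y = ∑ T : Finset κ, c T * ∏ i ∈ T, sg (y i) := by
  refine ⟨fun T => ∑ a, ψ a * (1 / 2) ^ Fintype.card κ * ∏ i ∈ T, sg (a i), ?_, fun y => ?_⟩
  · simp only [Finset.prod_empty, mul_one]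
    rw [← Finset.sum_mul, hψ, zero_mul]
  · rw [pi_expand ψ y]
    simp_rw [Finset.sum_mul]
    rw [Finset.sum_comm]
    refine Finset.sum_congr rfl fun a _ => ?_
    have h1 : ∀ k, (if y k = a k then (1 : ℝ) else 0) = 1 / 2 * (1 + sg (a k) * sg (y k)) := by
      intro k
      rcases Int.units_eq_one_or (y k) with h | h <;>
        rcases Int.units_eq_one_or (a k) with h' | h' <;> simp [h, h'] <;> norm_num
    simp_rw [h1]
    rw [Finset.prod_mul_distrib, Finset.prod_one_add, Finset.prod_const, Finset.card_univ,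
      Finset.powerset_univ, ← mul_assoc, Finset.mul_sum]
    refine Finset.sum_congr rfl fun T _ => ?_
    rw [Finset.prod_mul_distrib]; ring

/-- The data produced by many gadgets. -/
structure Seed (T D N : ℕ) (vt η loss : ℝ) where
  Z : Type
  fZ : Fintype Z
  M : Model Z
  Λ : Type
  fΛ : Fintype Λ
  dΛ : DecidableEq Λ
  g : Z → Λ
  σ : Λ → ℝ
  good : Λ → Bool
  Y : Type
  fY : Fintype Y
  cardY : Fintype.card Y = N
  y : Z → Y
  all : M.All T
  save : ∀ l, good l = true → ∀ ψ : Y → ℝ, ∑ a, ψ a = 0 →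
    (fun z => ψ (y z) * (if g z = l then 1 else 0)) ∈ M.V D
  fair0 : ∀ l, good l = true → ∀ ψ : Y → ℝ, ∑ a, ψ a = 0 →
    ∑ z, M.p z * (ψ (y z) * (if g z = l then 1 else 0)) = 0
  fair1 : ∀ l, good l = true → ∀ ψ : Y → ℝ, ∑ a, ψ a = 0 →
    ∑ z, M.p z * (M.s z * (ψ (y z) * (if g z = l then 1 else 0))) = 0
  var : ∑ z, M.p z * M.s z ^ 2 = vt
  prob : ∑ z, M.p z * (if good (g z) = true then 0 else 1) ≤ η
  lost : ∑ z, M.p z * (M.s z - σ (g z)) ^ 2 ≤ loss

lemma exists_seed {n d : ℕ} {vt ρ loss : ℝ} (G : Gadget n d vt ρ loss) (l R j D : ℕ)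
    (hj : 1 ≤ j) (hD : l * R * (n + d) ≤ D + j * d) :
    Nonempty (Seed (l * R * (n + d)) D (2 ^ l) (l * R * vt) (l * (2 ^ j * (1 - ρ / 2) ^ R))
      (l * R * loss)) := by
  classical
  let _ := G.fZ; let _ := G.fΛ; let _ := G.dΛ
  let κ := Fin l × Fin R
  have hκ : Fintype.card κ = l * R := by simp [κ]
  let μ : ℝ := ∑ z, G.M.p z * (G.M.s z - G.σ (G.g z))
  let good : (κ → G.Λ) → Bool := fun a =>
    decide (∀ i : Fin l, j ≤ (univ.filter fun k : κ => k.1 = i ∧ G.r (a k) = true).card)
  let y : (κ → G.Z) → Fin l → Units ℤ := fun ω i =>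
    ∏ k : κ, if k.1 = i ∧ G.r (G.g (ω k)) = true then G.y (ω k) else 1
  let φ : (κ → G.Λ) → Finset (Fin l) → κ → G.Z → ℝ := fun a T k z =>
    (if k.1 ∈ T ∧ G.r (a k) = true then sg (G.y z) else 1) * (if G.g z = a k then 1 else 0)
  have sg_prod : ∀ f : κ → Units ℤ, sg (∏ k, f k) = ∏ k, sg (f k) := by
    intro f; simp [sg]
  have hkey : ∀ (a : κ → G.Λ) (T : Finset (Fin l)) (ω : κ → G.Z),
      (∏ i ∈ T, sg (y ω i)) * (if (fun k => G.g (ω k)) = a then 1 else 0) = ∏ k, φ a T k (ω k) := by
    intro a T ω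
    by_cases h : (fun k => G.g (ω k)) = a
    · subst h
      simp only [y, φ, sg_prod, if_true, mul_one]
      rw [Finset.prod_comm]
      refine Finset.prod_congr rfl fun k _ => ?_
      by_cases hr : G.r (G.g (ω k)) = true
      · simp [hr, apply_ite sg]
      · simp [hr]
    · rw [if_neg h, mul_zero]
      obtain ⟨k, hk⟩ := Function.ne_iff.mp h
      symm
      apply Finset.prod_eq_zero (Finset.mem_univ k)
      simp only [φ]
      rw [if_neg hk, mul_zero]
  have hexp : ∀ (a : κ → G.Λ) (ψ : (Fin l → Units ℤ) → ℝ), ∑ b, ψ b = 0 →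
      ∃ c : Finset (Fin l) → ℝ, c ∅ = 0 ∧ ∀ ω : κ → G.Z,
        ψ (y ω) * (if (fun k => G.g (ω k)) = a then 1 else 0) = ∑ T, c T * ∏ k, φ a T k (ω k) := by
    intro a ψ hψ
    obtain ⟨c, hc0, hc⟩ := fourier_expand ψ hψ
    refine ⟨c, hc0, fun ω => ?_⟩
    rw [hc, Finset.sum_mul]
    exact Finset.sum_congr rfl fun T _ => by rw [mul_assoc, hkey]
  have hwit : ∀ (a : κ → G.Λ), good a = true → ∀ T : Finset (Fin l), T ≠ ∅ →
      j ≤ (univ.filter fun k : κ => k.1 ∈ T ∧ G.r (a k) = true).card := by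
    intro a ha T hT
    obtain ⟨i, hi⟩ := Finset.nonempty_iff_ne_empty.mpr hT
    have h1 := (decide_eq_true_iff.mp ha) i
    refine h1.trans (Finset.card_le_card fun k hk => ?_)
    simp only [Finset.mem_filter, Finset.mem_univ, true_and] at hk ⊢
    exact ⟨hk.1 ▸ hi, hk.2⟩
  have hwit' : ∀ (a : κ → G.Λ), good a = true → ∀ T : Finset (Fin l), T ≠ ∅ →
      ∃ k : κ, k.1 ∈ T ∧ G.r (a k) = true := by
    intro a ha T hT
    obtain ⟨k, hk⟩ := Finset.card_pos.mp (lt_of_lt_of_le hj (hwit a ha T hT))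
    exact ⟨k, (Finset.mem_filter.mp hk).2⟩
  refine ⟨
    { Z := κ → G.Z
      fZ := inferInstance
      M := G.M.pi κ
      Λ := κ → G.Λ
      fΛ := inferInstance
      dΛ := inferInstance
      g := fun ω k => G.g (ω k)
      σ := fun a => ∑ k, (G.σ (a k) + μ)
      good := good
      Y := Fin l → Units ℤ
      fY := inferInstance
      cardY := by simp [Fintype.card_units_int]
      y := y
      all := hκ ▸ Model.pi_All G.all κ
      save := ?_
      fair0 := ?_
      fair1 := ?_
      var := ?_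
      prob := ?_
      lost := ?_ }⟩
  · intro a ha ψ hψ
    obtain ⟨c, hc0, hc⟩ := hexp a ψ hψ
    simp_rw [hc]
    refine Model.V_sum _ _ fun T _ => ?_
    by_cases hT : T = ∅
    · subst hT
      simp only [hc0, zero_mul]
      exact Model.V_const _ _ _
    · refine Model.V_cmul _ _ ?_
      have h1 := Model.pi_prod_mem G.M κ
        (n := fun k => if k.1 ∈ T ∧ G.r (a k) = true then n else n + d) (φ := φ a T)
        (fun k => by
          by_cases hk : k.1 ∈ T ∧ G.r (a k) = true
          · simp only [φ, if_pos hk]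
            exact G.save _ hk.2
          · simp only [if_neg hk]
            exact G.all _)
      refine Model.V_mono _ ?_ h1
      have h2 : ∑ k : κ, (if k.1 ∈ T ∧ G.r (a k) = true then n else n + d) +
          (univ.filter fun k : κ => k.1 ∈ T ∧ G.r (a k) = true).card * d = l * R * (n + d) := by
        rw [Finset.card_filter, Finset.sum_mul, ← Finset.sum_add_distrib, ← hκ,
          ← Finset.card_univ, ← smul_eq_mul, ← Finset.sum_const]
        refine Finset.sum_congr rfl fun k _ => ?_
        split_ifs <;> simp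
      have h3 := Nat.mul_le_mul_right d (hwit a ha T hT)
      omega
  · intro a ha ψ hψ
    obtain ⟨c, hc0, hc⟩ := hexp a ψ hψ
    simp_rw [hc, Finset.mul_sum]
    rw [Finset.sum_comm]
    refine Finset.sum_eq_zero fun T _ => ?_
    by_cases hT : T = ∅
    · simp [hT, hc0]
    · obtain ⟨k0, hk0⟩ := hwit' a ha T hT
      simp_rw [mul_left_comm _ (c T)]
      rw [← Finset.mul_sum]
      simp only [Model.pi_p]
      rw [sum_pi_prod G.M.p (φ a T), Finset.prod_eq_zero (Finset.mem_univ k0), mul_zero]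
      simp only [φ, if_pos hk0]
      exact G.fair0 _ hk0.2
  · intro a ha ψ hψ
    obtain ⟨c, hc0, hc⟩ := hexp a ψ hψ
    have h1 : ∀ ω : κ → G.Z, (G.M.pi κ).p ω * ((G.M.pi κ).s ω *
        (ψ (y ω) * (if (fun k => G.g (ω k)) = a then 1 else 0)))
        = ∑ T, c T * ((∏ k, G.M.p (ω k) * φ a T k (ω k)) * ∑ k, G.M.s (ω k)) := by
      intro ω
      rw [hc, Finset.mul_sum, Finset.mul_sum]
      refine Finset.sum_congr rfl fun T _ => ?_
      rw [Finset.prod_mul_distrib (f := fun k => G.M.p (ω k)) (g := fun k => φ a T k (ω k))]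
      simp only [Model.pi_p, Model.pi_s]
      ring
    simp_rw [h1]
    rw [Finset.sum_comm]
    refine Finset.sum_eq_zero fun T _ => ?_
    by_cases hT : T = ∅
    · simp [hT, hc0]
    · obtain ⟨k0, hk0⟩ := hwit' a ha T hT
      rw [← Finset.mul_sum, sum_pi_lin (fun k z => G.M.p z * φ a T k z) G.M.s,
        Finset.sum_eq_zero, mul_zero]
      intro k1 _
      apply Finset.prod_eq_zero (Finset.mem_univ k0)
      simp only [φ, if_pos hk0]
      split_ifs
      · refine Eq.trans ?_ (G.fair1 _ hk0.2)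
        exact Finset.sum_congr rfl fun z _ => by ring
      · refine Eq.trans ?_ (G.fair0 _ hk0.2)
        exact Finset.sum_congr rfl fun z _ => by ring
  · simp only [Model.pi_p, Model.pi_s]
    rw [sum_pi_sq_iid G.M.p G.M.s G.M.sum_p G.M.sum_ps, G.var, hκ]
    push_cast; ring
  · have h1 : ∀ a : κ → G.Λ, (if good a = true then (0 : ℝ) else 1) ≤
        ∑ i : Fin l, 2 ^ j * ∏ k : κ, (if k.1 = i ∧ G.r (a k) = true then (1 / 2 : ℝ) else 1) := by
      intro a
      have hnn : ∀ i : Fin l, (0 : ℝ) ≤ 2 ^ j *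
          ∏ k : κ, (if k.1 = i ∧ G.r (a k) = true then (1 / 2 : ℝ) else 1) := fun i =>
        mul_nonneg (by positivity) (Finset.prod_nonneg fun k _ => by split_ifs <;> norm_num)
      split_ifs with ha
      · exact Finset.sum_nonneg fun i _ => hnn i
      · have h2 : ∃ i : Fin l, (univ.filter fun k : κ => k.1 = i ∧ G.r (a k) = true).card < j := by
          by_contra hc
          push Not at hc
          exact ha (decide_eq_true_iff.mpr hc)
        obtain ⟨i, hi⟩ := h2
        refine le_trans ?_ (Finset.single_le_sum (fun i _ => hnn i) (Finset.mem_univ i))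
        rw [Finset.prod_ite, Finset.prod_const_one, mul_one, Finset.prod_const]
        obtain ⟨e, he⟩ := Nat.exists_eq_add_of_le hi.le
        rw [he, pow_add, mul_comm, ← mul_assoc, ← mul_pow]
        norm_num
        exact one_le_pow₀ (by norm_num)
    calc ∑ ω : κ → G.Z, (G.M.pi κ).p ω * (if good (fun k => G.g (ω k)) = true then (0 : ℝ) else 1)
        ≤ ∑ ω : κ → G.Z, (G.M.pi κ).p ω * ∑ i : Fin l, 2 ^ j *
            ∏ k : κ, (if k.1 = i ∧ G.r (G.g (ω k)) = true then (1 / 2 : ℝ) else 1) :=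
          Finset.sum_le_sum fun ω _ => mul_le_mul_of_nonneg_left (h1 _) (Model.p_nonneg _ _)
      _ = ∑ _i : Fin l, 2 ^ j * (1 - ρ / 2) ^ R := by
          simp_rw [Finset.mul_sum]
          rw [Finset.sum_comm]
          refine Finset.sum_congr rfl fun i _ => ?_
          simp_rw [mul_left_comm _ ((2 : ℝ) ^ j)]
          rw [← Finset.mul_sum]
          congr 1
          simp only [Model.pi_p]
          rw [sum_pi_prod G.M.p
            (fun (k : κ) z => if k.1 = i ∧ G.r (G.g z) = true then (1 / 2 : ℝ) else 1)]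
          have h3 : ∀ k : κ, ∑ z, G.M.p z *
              (if k.1 = i ∧ G.r (G.g z) = true then (1 / 2 : ℝ) else 1)
              = if k.1 = i then 1 - ρ / 2 else 1 := by
            intro k
            split_ifs with hk
            · have e : ∀ z, G.M.p z * (if k.1 = i ∧ G.r (G.g z) = true then (1 / 2 : ℝ) else 1)
                  = G.M.p z - G.M.p z * (if G.r (G.g z) = true then 1 else 0) / 2 := by
                intro z
                simp only [hk, true_and]
                split_ifs <;> ring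
              simp_rw [e]
              rw [Finset.sum_sub_distrib, ← Finset.sum_div, G.prob, G.M.sum_p]
            · simp [hk, G.M.sum_p]
          simp_rw [h3]
          rw [Fintype.prod_prod_type_right]
          have h4 : ∀ r : Fin R, ∏ x : Fin l, (if ((x, r) : κ).1 = i then 1 - ρ / 2 else 1)
              = 1 - ρ / 2 := by
            intro r
            rw [Finset.prod_eq_single i]
            · exact if_pos rfl
            · intro b _ hb; exact if_neg hb
            · intro h; exact absurd (Finset.mem_univ i) h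
          rw [Finset.prod_congr rfl (fun r _ => h4 r)]
          simp
      _ = l * (2 ^ j * (1 - ρ / 2) ^ R) := by simp
  · simp only [Model.pi_p, Model.pi_s]
    simp_rw [← Finset.sum_sub_distrib]
    have hc : ∑ z, G.M.p z * (G.M.s z - (G.σ (G.g z) + μ)) = 0 := by
      have : ∀ z, G.M.p z * (G.M.s z - (G.σ (G.g z) + μ))
          = G.M.p z * (G.M.s z - G.σ (G.g z)) - G.M.p z * μ := fun z => by ring
      simp_rw [this]
      rw [Finset.sum_sub_distrib, ← Finset.sum_mul, G.M.sum_p]
      simp [μ]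
    rw [sum_pi_sq_iid G.M.p (fun z => G.M.s z - (G.σ (G.g z) + μ)) G.M.sum_p hc, hκ]
    push_cast
    refine mul_le_mul_of_nonneg_left (le_trans ?_ G.lost) (by positivity)
    have h1 : ∑ z, G.M.p z * (G.M.s z - G.σ (G.g z)) ^ 2
        = ∑ z, G.M.p z * (G.M.s z - (G.σ (G.g z) + μ)) ^ 2
          + 2 * μ * ∑ z, G.M.p z * (G.M.s z - (G.σ (G.g z) + μ)) + μ ^ 2 * ∑ z, G.M.p z := by
      simp only [Finset.mul_sum, ← Finset.sum_add_distrib]
      exact Finset.sum_congr rfl fun z _ => by ring
    rw [h1, hc, G.M.sum_p]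
    nlinarith [sq_nonneg μ]

end Vale.Agent.P047
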