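import Vale.Agent.P047.Cheb

/-!
One level of the construction gains a uniform amount in the ratio variance / degree, and the
iteration.
-/

namespace Vale.Agent.P047

open Finset

lemma one_sub_pow_mul_le (x : ℝ) (h0 : 0 ≤ x) (h1 : x ≤ 1) (R : ℕ) :
    (1 - x) ^ R * (1 + R * x) ≤ 1 := by
  have h2 : 1 + R * x ≤ (1 + x) ^ R := one_add_mul_le_pow (by linarith) R
  have h3 : (0 : ℝ) ≤ (1 - x) ^ R := pow_nonneg (by linarith) R
  calc (1 - x) ^ R * (1 + R * x) ≤ (1 - x) ^ R * (1 + x) ^ R := mul_le_mul_of_nonneg_left h2 h3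
    _ = (1 - x ^ 2) ^ R := by rw [← mul_pow]; congr 1; ring
    _ ≤ 1 := pow_le_one₀ (by nlinarith) (by nlinarith)

lemma step : ∃ K0 : ℕ, ∀ {X : Type} [Fintype X] (M : Model X) (d : ℕ) (v : ℝ), M.All d → 5 ≤ d →
    0 < v → ∑ x, M.p x * M.s x ^ 2 = v → ∑ x, M.p x * M.s x ^ 4 ≤ 4 * v ^ 2 →
    ∃ (K : ℕ) (X' : Type) (_ : Fintype X') (M' : Model X'), K ≤ K0 ∧ M'.All ((K + 11) * d) ∧
      (K + 12) * v ≤ ∑ x, M'.p x * M'.s x ^ 2 := by
  obtain ⟨j, hj⟩ : ∃ j : ℕ, j = 768 := ⟨_, rfl⟩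
  obtain ⟨l, hl⟩ : ∃ l : ℕ, l = 41 := ⟨_, rfl⟩
  have hlr : (l : ℝ) = 41 := by rw [hl]; norm_num
  obtain ⟨J, hJ⟩ : ∃ J : ℝ, J = 2 ^ j := ⟨_, rfl⟩
  have hJ0 : 0 < J := by rw [hJ]; positivity
  set B : ℝ := 8200 * J with hB
  have hB0 : 0 < B := by positivity
  set lam : ℝ := 1 / (82 * (B + 1)) with hlam
  have hlam0 : 0 < lam := by positivity
  have hlam1 : lam < 1 := by
    rw [hlam, div_lt_one (by positivity)]; linarith
  obtain ⟨Q, p0, hp0, hp1, hcl⟩ := classes lam hlam0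
  refine ⟨l * ⌈B / p0 ^ Q⌉₊ * Q, ?_⟩
  intro X _ M d v hM hd hv h2 h4
  obtain ⟨C, _, _, c, t, hCQ, hmass, hcent, hsum⟩ := hcl M.p M.s v M.p_nonneg M.sum_p hv h2 h4
  have hX : Nonempty X := by
    by_contra hc
    rw [not_nonempty_iff] at hc
    have := M.sum_p
    simp at this
  have hnt : Nontrivial C := by
    by_contra hc
    rw [not_nontrivial_iff_subsingleton] at hc
    obtain ⟨x0⟩ := hX
    have hca : ∀ x, c x = c x0 := fun x => Subsingleton.elim _ _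
    have hsum' := hsum
    rw [Fintype.sum_subsingleton _ (c x0)] at hsum'
    have hc0 := hcent (c x0)
    simp only [hca, if_true, mul_one, M.sum_p, div_one] at hsum' hc0
    have ht : t (c x0) = 0 := by
      simp only [mul_sub, Finset.sum_sub_distrib, ← Finset.sum_mul, M.sum_p, M.sum_ps] at hc0
      linarith
    simp only [ht, sub_zero, h2] at hsum'
    nlinarith
  obtain ⟨ρ, hρ, ⟨G⟩⟩ := exists_gadget M hM c t hp0 hmass hcent hsum
  set q := Fintype.card C with hq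
  have hq1 : 1 ≤ q := Fintype.card_pos_iff.mpr ⟨c hX.some⟩
  have hρQ : p0 ^ Q ≤ ρ := (pow_le_pow_of_le_one hp0.le hp1 hCQ).trans hρ
  have hρ0 : 0 < ρ := lt_of_lt_of_le (by positivity) hρQ
  have hρ1 : ρ ≤ 1 := by
    let _ := G.fZ
    rw [← G.M.sum_p]
    refine G.prob.symm.le.trans (Finset.sum_le_sum fun z _ => ?_)
    have := G.M.p_nonneg z
    split_ifs <;> linarith
  set R := ⌈B / ρ⌉₊ with hR
  have hR1 : B ≤ R * ρ := by
    have := Nat.le_ceil (B / ρ)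
    rwa [div_le_iff₀ hρ0] at this
  have hR2 : R * ρ ≤ B + 1 := by
    have := (Nat.ceil_lt_add_one (div_nonneg hB0.le hρ0.le)).le
    have h3 := mul_le_mul_of_nonneg_right this hρ0.le
    rw [add_mul, div_mul_cancel₀ _ hρ0.ne'] at h3
    linarith
  have hR3 : R ≤ ⌈B / p0 ^ Q⌉₊ :=
    Nat.ceil_mono (div_le_div_of_nonneg_left hB0.le (by positivity) hρQ)
  have hqd : (q - 1) * d + d = q * d := by
    obtain ⟨k, hk⟩ := Nat.exists_eq_add_of_le hq1
    rw [hk, Nat.add_sub_cancel_left]; ring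
  have hjd : j * d ≤ l * R * ((q - 1) * d + d) := by
    have h5 : (j : ℝ) ≤ R := by
      have h6 : (j : ℝ) ≤ J := by
        rw [hJ]; exact_mod_cast (Nat.lt_two_pow_self).le
      have h7 : (R : ℝ) * ρ ≤ R := mul_le_of_le_one_right (Nat.cast_nonneg R) hρ1
      linarith
    have h6 : j ≤ R := by exact_mod_cast h5
    rw [hqd]
    calc j * d ≤ R * d := Nat.mul_le_mul_right d h6
      _ = 1 * R * (1 * d) := by ring
      _ ≤ l * R * (q * d) :=
        Nat.mul_le_mul (Nat.mul_le_mul_right R (by omega)) (Nat.mul_le_mul_right d hq1)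
  obtain ⟨S⟩ := exists_seed G l R j (l * R * ((q - 1) * d + d) - j * d) (by omega) (by omega)
  obtain ⟨a, ha0, ha, hbit⟩ := exists_bit M hM hv h2 h4
  obtain ⟨W, _, U, G', hU, hG', hG0, hgran, hA⟩ := exists_main ha0 hbit
  have hKd : l * R * ((q - 1) * d + d) = l * R * q * d := by rw [hqd]; ring
  obtain ⟨X', _, M', hM', hvar⟩ := combine S (by positivity) U (D' := (l * R * q + 11) * d) hU G'
    hG' hG0 (by rw [hl]; exact hgran) (by rw [hKd, add_mul]; omega)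
    (by
      have h5 : j * d = 768 * d := by rw [hj]
      rw [hKd] at hjd ⊢
      rw [add_mul, h5]
      rw [h5] at hjd
      generalize l * R * q * d = T at hjd ⊢
      omega)
  refine ⟨l * R * q, X', inferInstance, M', ?_, hM', le_trans ?_ hvar⟩
  · exact Nat.mul_le_mul (Nat.mul_le_mul_left l hR3) hCQ
  · rw [h2, ← hJ]
    set A := ∑ w, U.p w * (U.s w * G' w) with hAdef
    have hA2 : 361 / 28 * v ≤ A ^ 2 := by
      have := pow_le_pow_left₀ (by positivity) hA 2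
      nlinarith
    have hη : l * (J * (1 - ρ / 2) ^ R) ≤ 1 / 100 := by
      have h5 := one_sub_pow_mul_le (ρ / 2) (by linarith) (by linarith) R
      have h6 : (0 : ℝ) ≤ (1 - ρ / 2) ^ R := pow_nonneg (by linarith) R
      have h7 : (1 - ρ / 2) ^ R * (4100 * J) ≤ 1 := by
        refine le_trans (mul_le_mul_of_nonneg_left ?_ h6) h5
        linarith
      rw [hlr]
      linarith
    have hloss : (l : ℝ) * R * (ρ * (lam * v)) ≤ v / 2 := by
      have h5 : lam * (B + 1) = 1 / 82 := by rw [hlam]; field_simp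
      have h6 : (R * ρ) * (lam * v) ≤ (B + 1) * (lam * v) :=
        mul_le_mul_of_nonneg_right hR2 (by positivity)
      have h7 : (B + 1) * (lam * v) = v / 82 := by
        rw [← mul_assoc, mul_comm (B + 1), h5]; ring
      rw [hlr]
      linarith
    have h8 : 99 / 100 * (361 / 28 * v) ≤ (1 - l * (J * (1 - ρ / 2) ^ R)) * A ^ 2 :=
      mul_le_mul (by linarith) hA2 (by positivity) (by linarith)
    push_cast
    linarith

/-- Taking many copies restores the kurtosis bound. -/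
lemma restore {X : Type} [Fintype X] (M : Model X) {d : ℕ} (hM : M.All d) {v : ℝ} (hv : 0 < v)
    (h2 : ∑ x, M.p x * M.s x ^ 2 = v) :
    ∃ (m : ℕ) (X' : Type) (_ : Fintype X') (M' : Model X'), 5 ≤ m ∧ M'.All (m * d) ∧
      ∑ x, M'.p x * M'.s x ^ 2 = m * v ∧ ∑ x, M'.p x * M'.s x ^ 4 ≤ 4 * (m * v) ^ 2 := by
  obtain ⟨m, hm⟩ := exists_nat_ge ((∑ x, M.p x * M.s x ^ 4) / v ^ 2 + 5)
  have hμ : 0 ≤ ∑ x, M.p x * M.s x ^ 4 :=
    Finset.sum_nonneg fun x _ => mul_nonneg (M.p_nonneg x) (by positivity)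
  have hμ' : 0 ≤ (∑ x, M.p x * M.s x ^ 4) / v ^ 2 := by positivity
  have hm5 : (5 : ℝ) ≤ m := by linarith
  obtain ⟨_, _, h2', h4'⟩ := pi_moments M.p M.s M.sum_p M.sum_ps m
  refine ⟨m, _, inferInstance, M.pi (Fin m), by exact_mod_cast hm5, ?_, ?_, ?_⟩
  · have := Model.pi_All hM (Fin m)
    rwa [Fintype.card_fin] at this
  · simp only [Model.pi_p, Model.pi_s]
    rw [h2', h2]
  · simp only [Model.pi_p, Model.pi_s]
    rw [h4', h2]
    have h5 : ∑ x, M.p x * M.s x ^ 4 ≤ m * v ^ 2 := by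
      rw [← div_le_iff₀ (by positivity)]; linarith
    have h6 := mul_le_mul_of_nonneg_left h5 (Nat.cast_nonneg (α := ℝ) m)
    have h7 : 0 ≤ (m : ℝ) * v ^ 2 := by positivity
    nlinarith

lemma ratio_unbounded (r : ℝ) : ∃ (X : Type) (_ : Fintype X) (M : Model X) (d : ℕ),
    1 ≤ d ∧ M.All d ∧ (d : ℝ) ≤ ∑ x, M.p x * M.s x ^ 2 ∧ r * d ≤ ∑ x, M.p x * M.s x ^ 2 := by
  obtain ⟨K0, hK0⟩ := @step
  have key : ∀ t : ℕ, ∃ (X : Type) (_ : Fintype X) (M : Model X) (d : ℕ),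
      1 ≤ d ∧ M.All d ∧ (1 + t / ((K0 : ℝ) + 11)) * d ≤ ∑ x, M.p x * M.s x ^ 2 := by
    intro t
    induction t with
    | zero =>
      refine ⟨Units ℤ, inferInstance, Model.coin, 1, le_rfl, Model.coin_All, ?_⟩
      rw [sum_units]; simp; norm_num
    | succ t ih =>
      obtain ⟨X, _, M, d, hd, hM, hv⟩ := ih
      have hdr : (1 : ℝ) ≤ d := by exact_mod_cast hd
      set ρ : ℝ := 1 + t / ((K0 : ℝ) + 11) with hρ
      have hρ1 : 1 ≤ ρ := by
        have : (0 : ℝ) ≤ t / ((K0 : ℝ) + 11) := by positivity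
        linarith
      set v := ∑ x, M.p x * M.s x ^ 2 with hvdef
      have hv0 : 0 < v := by nlinarith
      obtain ⟨m, X1, _, M1, hm, hM1, h2, h4⟩ := restore M hM hv0 hvdef.symm
      have hmr : (5 : ℝ) ≤ m := by exact_mod_cast hm
      obtain ⟨K, X2, _, M2, hK, hM2, hv2⟩ := hK0 M1 (m * d) (m * v) hM1 (by nlinarith)
        (by positivity) h2 h4
      refine ⟨X2, inferInstance, M2, (K + 11) * (m * d), Nat.succ_le_of_lt (by positivity), hM2,
        le_trans ?_ hv2⟩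
      have hKr : (K : ℝ) ≤ K0 := by exact_mod_cast hK
      have e : (1 + ((t + 1 : ℕ) : ℝ) / ((K0 : ℝ) + 11)) = ρ + 1 / ((K0 : ℝ) + 11) := by
        rw [hρ]; push_cast; ring
      rw [e]
      push_cast
      have h5 : 1 / ((K0 : ℝ) + 11) * ((K : ℝ) + 11) ≤ 1 := by
        rw [one_div, inv_mul_le_iff₀ (by positivity)]; linarith
      have hmd : (0 : ℝ) ≤ m * d := by positivity
      have h6 : ρ * (m * d) ≤ m * v := by nlinarith
      have h7 : 1 / ((K0 : ℝ) + 11) * ((K : ℝ) + 11) * (m * d) ≤ ρ * (m * d) :=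
        mul_le_mul_of_nonneg_right (h5.trans hρ1) hmd
      have h8 : ((K : ℝ) + 12) * (ρ * (m * d)) ≤ (K + 12) * (m * v) :=
        mul_le_mul_of_nonneg_left h6 (by positivity)
      nlinarith
  obtain ⟨t, ht⟩ := exists_nat_ge (r * ((K0 : ℝ) + 11))
  obtain ⟨X, _, M, d, hd, hM, hv⟩ := key t
  have hdr : (0 : ℝ) ≤ d := Nat.cast_nonneg d
  have h1 : r ≤ t / ((K0 : ℝ) + 11) := by rw [le_div_iff₀ (by positivity)]; exact ht
  have h2 : (0 : ℝ) ≤ t / ((K0 : ℝ) + 11) := by positivity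
  exact ⟨X, inferInstance, M, d, hd, hM, by nlinarith, by nlinarith⟩

/-- A balanced Boolean function beating the square root of its degree bound. -/
lemma exists_good_bit : ∃ (a : ℝ) (d : ℕ), 0 ≤ a ∧ 2 ≤ d ∧ (d : ℝ) < a ^ 2 ∧ IsBit a d := by
  obtain ⟨X, _, M, d, hd, hM, _, hv⟩ := ratio_unbounded 100
  have hdr : (1 : ℝ) ≤ d := by exact_mod_cast hd
  set v := ∑ x, M.p x * M.s x ^ 2 with hvdef
  obtain ⟨m, X1, _, M1, hm, hM1, h2, h4⟩ := restore M hM (by linarith) hvdef.symm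
  have hmr : (5 : ℝ) ≤ m := by exact_mod_cast hm
  obtain ⟨a, ha0, ha, hbit⟩ := exists_bit M1 hM1 (by nlinarith) h2 h4
  refine ⟨a, 2 * (m * d) + 1, ha0, ?_, ?_, hbit⟩
  · have : 1 ≤ m * d := Nat.succ_le_of_lt (by positivity)
    omega
  · push_cast
    nlinarith

end Vale.Agent.P047
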